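import Vale.Agent.P116.Cl.Fr905
import Vale.Agent.P116.H906.Nodes

/-!
P116, full Koebe, block [45]: the compact sets `DD K w k m F` = the part of level `k` of the node
`w` minus the open nodes of level `m` at finitely many points.
-/

open Set Filter Topology Metric Bornology MeasureTheory
open scoped ENNReal NNReal

namespace Vale.Agent.P116.Cl

open H906

variable {K : Set ℂ}

/-- a level is in the interior of the previous ones -/
lemma lev_subset_interior {m N : ℕ} (h : m < N) : lev K N ⊆ interior (lev K m) := by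
  intro z hz
  by_cases hzA : z ∈ cthickening (lr N) K
  · have h1 : lr N < lr m := by
      unfold lr
      have : (m : ℝ) < N := by exact_mod_cast h
      gcongr
    have h2 : z ∈ thickening (lr m) K := cthickening_subset_thickening' (lr_pos m) h1 K hzA
    have h3 : thickening (lr m) K ⊆ lev K m :=
      (thickening_subset_cthickening _ _).trans (subset_fil _)
    exact interior_maximal h3 isOpen_thickening h2
  · have h1 : z ∈ interior (lev K N) := by
      by_contra hcon
      have h2 : z ∈ frontier (lev K N) := ⟨subset_closure hz, hcon⟩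
      have h3 := frontier_fil_subset isClosed_cthickening h2
      exact hzA (isClosed_cthickening.frontier_subset h3)
    exact interior_mono (lev_anti h.le) h1

/-- a node is in the interior of its ancestors -/
lemma nd_subset_interior (hK : IsCompact K) {m N : ℕ} (h : m < N) (x : ℂ) :
    nd K N x ⊆ interior (nd K m x) := by
  intro z hz
  by_contra hcon
  have h1 : z ∈ frontier (nd K m x) := ⟨subset_closure (nd_anti h.le hz), hcon⟩
  exact (frontier_nd_subset hK m x h1).2 (lev_subset_interior h (nd_subset N x hz))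

lemma frontier_lev_disjoint (n : ℕ) : Disjoint (frontier (lev K n)) K := by
  rw [Set.disjoint_left]
  intro z hz hzK
  refine hz.2 (mem_interior_iff_mem_nhds.2 ?_)
  exact mem_of_superset (closedBall_mem_nhds z (lr_pos n)) (closedBall_subset_lev hzK n)

/-- the sets on which the compatibility is proved -/
def DD (K w : Set ℂ) (k m : ℕ) (F : Set ℂ) : Set ℂ :=
  (lev K k ∩ w) \ ⋃ y ∈ F, interior (nd K m y)

variable {w F : Set ℂ} {k m : ℕ}

lemma DD_subset : DD K w k m F ⊆ w := fun _ hz => hz.1.2

lemma DD_subset_lev : DD K w k m F ⊆ lev K k := fun _ hz => hz.1.1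

lemma isCompact_DD (hw : IsCompact w) : IsCompact (DD K w k m F) :=
  (hw.inter_left (isClosed_lev k)).diff (isOpen_biUnion fun _ _ => isOpen_interior)

lemma isClosed_DD (hw : IsClosed w) : IsClosed (DD K w k m F) := by
  have h1 : DD K w k m F = (lev K k ∩ w) ∩ (⋃ y ∈ F, interior (nd K m y))ᶜ := rfl
  rw [h1]
  exact ((isClosed_lev k).inter hw).inter
    (isOpen_biUnion fun _ _ => isOpen_interior).isClosed_compl

/-- the frontier of `DD` -/
lemma frontier_DD_subset (hK : IsCompact K) (hw : IsClosed w) (hF : F.Finite) :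
    frontier (DD K w k m F) ⊆
      frontier (lev K k) ∪ frontier w ∪ ⋃ y ∈ F, frontier (nd K m y) := by
  intro z hz
  have hzD : z ∈ DD K w k m F := (isClosed_DD hw).frontier_subset hz
  by_contra hcon
  simp only [mem_union, mem_iUnion, not_or, not_exists] at hcon
  obtain ⟨⟨h1, h2⟩, h3⟩ := hcon
  apply hz.2
  have h4 : z ∈ interior (lev K k) := by
    by_contra h
    exact h1 ⟨subset_closure hzD.1.1, h⟩
  have h5 : z ∈ interior w := by
    by_contra h
    exact h2 ⟨subset_closure hzD.1.2, h⟩
  have h6 : ∀ y ∈ F, z ∉ nd K m y := by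
    intro y hy hzy
    refine h3 y hy ⟨subset_closure hzy, fun h => hzD.2 (mem_biUnion hy h)⟩
  have h7 : IsClosed (⋃ y ∈ F, nd K m y) :=
    hF.isClosed_biUnion fun y _ => (isCompact_nd hK m y).isClosed
  have h8 : z ∈ (⋃ y ∈ F, nd K m y)ᶜ := by
    simp only [mem_compl_iff, mem_iUnion, not_exists]
    exact h6
  rw [mem_interior_iff_mem_nhds] at h4 h5 ⊢
  filter_upwards [h4, h5, h7.isOpen_compl.mem_nhds h8] with y hy1 hy2 hy3
  refine ⟨⟨hy1, hy2⟩, fun h => hy3 ?_⟩
  obtain ⟨y', hy', h9⟩ := mem_iUnion₂.1 h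
  exact mem_biUnion hy' (interior_subset h9)

lemma frontier_DD_disjoint (hK : IsCompact K) (hw : IsClosed w) (hF : F.Finite)
    (hfr : Disjoint (frontier w) K) : Disjoint (frontier (DD K w k m F)) K := by
  refine Disjoint.mono_left (frontier_DD_subset hK hw hF) ?_
  refine Disjoint.union_left (Disjoint.union_left (frontier_lev_disjoint k) hfr) ?_
  rw [disjoint_iUnion₂_left]
  exact fun y _ => frontier_nd_disjoint m y

lemma volume_frontier_DD (hK : IsCompact K) (hw : IsClosed w) (hF : F.Finite)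
    (h0 : volume (frontier w) = 0) : volume (frontier (DD K w k m F)) = 0 := by
  refine measure_mono_null (frontier_DD_subset hK hw hF) ?_
  refine measure_union_null (measure_union_null (volume_frontier_lev hK k) h0) ?_
  exact (measure_biUnion_null_iff hF.countable).2 fun y _ => volume_frontier_nd hK m y

/-- `DD` is saturated -/
lemma DD_sat (hK : IsCompact K) (hw : IsClosed w) (hF : F.Finite)
    (hfr : Disjoint (frontier w) K) {z : ℂ} (hz : z ∈ DD K w k m F) (hzK : z ∈ K) :
    connectedComponentIn K z ⊆ DD K w k m F := by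
  refine subset_of_frontier_disjoint isPreconnected_connectedComponentIn
    ⟨z, mem_connectedComponentIn hzK, hz⟩ ?_
  exact ((frontier_DD_disjoint hK hw hF hfr).mono_right (connectedComponentIn_subset K z)).symm

/-- exhaustion -/
lemma mem_DD_of_notMem (hK : IsCompact K) (hf : Full K) (hF : F.Finite) (hFK : F ⊆ K) {z : ℂ}
    (hz : z ∈ K) (hzw : z ∈ w) (h : ∀ y ∈ F, z ∉ connectedComponentIn K y) :
    ∃ m₀, ∀ m ≥ m₀, ∀ k, z ∈ DD K w k m F := by
  have h1 : ∀ y ∈ F, ∀ᶠ m in atTop, z ∉ nd K m y := by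
    intro y hy
    have h2 := h y hy
    rw [← iInter_nd hK hf (hFK hy)] at h2
    rw [mem_iInter] at h2
    push Not at h2
    obtain ⟨m₀, hm₀⟩ := h2
    filter_upwards [eventually_ge_atTop m₀] with m hm h3
    exact hm₀ (nd_anti hm h3)
  obtain ⟨m₀, hm₀⟩ := eventually_atTop.1 ((eventually_all_finite hF).2 h1)
  refine ⟨m₀, fun m hm k => ⟨⟨subset_lev k hz, hzw⟩, fun h3 => ?_⟩⟩
  obtain ⟨y, hy, h4⟩ := mem_iUnion₂.1 h3
  exact hm₀ m hm y hy (interior_subset h4)

/-- a piece in a late node is inside `DD` or inside one of the removed open nodes -/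
lemma piece_DD (hK : IsCompact K) {N : ℕ} (hmN : m < N) (hkN : k ≤ N) {P : Set ℂ} {x : ℂ}
    (hP : P ⊆ nd K N x) (hPw : P ⊆ w) :
    P ⊆ DD K w k m F ∨ ∃ y ∈ F, P ⊆ interior (nd K m y) := by
  by_cases h : ∃ y ∈ F, (nd K m y ∩ nd K N x).Nonempty
  · obtain ⟨y, hy, z, hz1, hz2⟩ := h
    right
    refine ⟨y, hy, hP.trans ?_⟩
    have h1 : nd K m y = nd K m x := by
      rw [← nd_eq hz1, nd_eq (nd_anti hmN.le hz2)]
    rw [h1]
    exact nd_subset_interior hK hmN x
  · push Not at h
    left
    intro z hz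
    refine ⟨⟨lev_anti hkN (nd_subset N x (hP hz)), hPw hz⟩, fun h1 => ?_⟩
    obtain ⟨y, hy, h2⟩ := mem_iUnion₂.1 h1
    have h3 := h y hy
    rw [← Set.not_nonempty_iff_eq_empty] at h3
    exact h3 ⟨z, interior_subset h2, hP hz⟩

lemma disjoint_DD_of_subset {P : Set ℂ} {y : ℂ} (hy : y ∈ F) (h : P ⊆ interior (nd K m y)) :
    Disjoint P (DD K w k m F) := by
  rw [Set.disjoint_left]
  exact fun z hz hzD => hzD.2 (mem_biUnion hy (h hz))

/-- the energy of `DD` tends to zero, uniformly in `m` and `F` -/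
theorem tendsto_energy (hK : IsCompact K) (hf : Full K) (hw : IsClosed w) {f : ℂ → ℝ≥0∞}
    (hfin : ∫⁻ z in w \ K, f z ≠ ⊤) :
    Tendsto (fun k => ∫⁻ z in (lev K k ∩ w) \ K, f z) atTop (𝓝 0) := by
  have hmK : MeasurableSet K := hK.isClosed.measurableSet
  have hms : ∀ k, MeasurableSet ((lev K k ∩ w) \ K) := fun k =>
    ((isClosed_lev k).inter hw).measurableSet.diff hmK
  have h1 : Tendsto (fun k => volume ((lev K k ∩ w) \ K)) atTop (𝓝 0) := by
    have h2 : ⋂ k, (lev K k ∩ w) \ K = ∅ := by
      rw [eq_empty_iff_forall_notMem]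
      intro z hz
      rw [mem_iInter] at hz
      have h3 : z ∈ ⋂ n, lev K n := mem_iInter.2 fun n => (hz n).1.1
      rw [iInter_lev hK hf] at h3
      exact (hz 0).2 h3
    have h3 := tendsto_measure_iInter_atTop (μ := (volume : Measure ℂ))
      (s := fun k => (lev K k ∩ w) \ K) (fun k => (hms k).nullMeasurableSet)
      (fun i j hij z hz => ⟨⟨lev_anti hij hz.1.1, hz.1.2⟩, hz.2⟩)
      ⟨0, ((measure_mono (diff_subset.trans inter_subset_left)).trans_lt
        (isCompact_lev hK 0).measure_lt_top).ne⟩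
    rw [h2, measure_empty] at h3
    exact h3
  have h4 : ∀ k, ∫⁻ z in (lev K k ∩ w) \ K, f z =
      ∫⁻ z in (lev K k ∩ w) \ K, f z ∂(volume.restrict (w \ K)) := by
    intro k
    rw [Measure.restrict_restrict (hms k)]
    congr 2
    ext z
    simp only [mem_diff, mem_inter_iff]
    tauto
  simp_rw [h4]
  refine tendsto_setLIntegral_zero hfin ?_
  refine tendsto_of_tendsto_of_tendsto_of_le_of_le tendsto_const_nhds h1 (fun _ => bot_le) ?_
  intro k
  exact Measure.restrict_apply_le _ _

lemma DD_diff_subset : DD K w k m F \ K ⊆ (lev K k ∩ w) \ K := fun _ hz => ⟨hz.1.1, hz.2⟩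

end Vale.Agent.P116.Cl
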