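import Vale.Agent.P116.Cl.E0Spec
import Vale.Agent.P116.Ms.EN4
import Vale.Agent.P116.H906.Sys

/-!
# Block AR: the area inequality for a univalent map

The smoothed area of `f` is the integral of the pushed forward cutoff, hence at least the energy of
`f` plus the area of any set of omitted values.
-/

open Set Filter Topology Metric Bornology MeasureTheory
open scoped ComplexConjugate Real

namespace Vale.Agent.P116.Cl

open FK Ms H906 PBC Slow

section

variable {n : ℕ} {c : Fin n → ℂ} {r : Fin n → ℝ} {L : Fin n → Set ℂ} {h : ℂ → ℂ} {B : ℝ}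

/-- the integral of the pushed forward cutoff (the equality behind EN4) -/
theorem en4_eq (hP : EP c r L h B) (j : Fin n) {E : ℂ → ℝ}
    (hE : ContDiff ℝ 1 (fun z => ((E z : ℝ) : ℂ))) (hs : HasCompactSupport E)
    {δ : ℝ} (hδ : 0 < δ) (h1 : ∀ z, infDist z (closedBall (c j) (r j)) < δ → E z = 1)
    (h0 : ∀ k, k ≠ j → ∀ z, infDist z (closedBall (c k) (r k)) < δ → E z = 0) :
    (∫ z, FK.db (fun z => ((E z : ℝ) : ℂ)) z * (conj (h z) * deriv h z)).re =
      -2 * ∫ w, pfE c r L h j E w := by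
  classical
  have hO : IsOpen (⋃ j, closedBall (c j) (r j))ᶜ :=
    (isClosed_iUnion_of_finite fun j => isClosed_closedBall).isOpen_compl
  set E' : ℂ → ℝ := pfE c r L h j E with hE'
  have hC : ContDiff ℝ 1 (fun w => ((E' w : ℝ) : ℂ)) := hP.pf_contDiff j hE hδ h1 h0
  have hS : HasCompactSupport E' := hP.pf_far j hs
  have hSc : HasCompactSupport (fun w => ((E' w : ℝ) : ℂ)) :=
    hS.comp_left (g := fun x : ℝ => (x : ℂ)) (by simp)
  have hdb0 : ∀ z, z ∉ (⋃ j, closedBall (c j) (r j))ᶜ →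
      FK.db (fun z => ((E z : ℝ) : ℂ)) z * (conj (h z) * deriv h z) = 0 := by
    intro z hz
    rw [mem_compl_iff, not_not] at hz
    obtain ⟨k, hk⟩ := mem_iUnion.1 hz
    have hnear : ∀ᶠ u in 𝓝 z, infDist u (closedBall (c k) (r k)) < δ := by
      have h2 : infDist z (closedBall (c k) (r k)) < δ := by
        rw [infDist_zero_of_mem hk]; exact hδ
      exact (continuous_infDist_pt _).continuousAt.eventually_lt continuousAt_const h2
    have : FK.db (fun z => ((E z : ℝ) : ℂ)) z = 0 := by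
      refine fkdb_const (a := ((if k = j then 1 else 0 : ℝ) : ℂ)) ?_
      filter_upwards [hnear] with u hu
      by_cases hkj : k = j
      · subst hkj; rw [if_pos rfl, h1 u hu]
      · rw [if_neg hkj, h0 k hkj u hu]
    rw [this, zero_mul]
  have hdb1 : ∀ w, w ∉ (⋃ i, L i)ᶜ → FK.db (fun w => ((E' w : ℝ) : ℂ)) w * conj w = 0 := by
    intro w hw
    rw [mem_compl_iff, not_not] at hw
    obtain ⟨k, hk⟩ := mem_iUnion.1 hw
    have : FK.db (fun w => ((E' w : ℝ) : ℂ)) w = 0 := by
      refine fkdb_const (a := ((if k = j then 1 else 0 : ℝ) : ℂ)) ?_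
      filter_upwards [hP.pf_near j hδ h1 h0 hk] with u hu
      rw [hE', hu]
    rw [this, zero_mul]
  have key : ∫ z, FK.db (fun z => ((E z : ℝ) : ℂ)) z * (conj (h z) * deriv h z) =
      -2 * ∫ w, ((E' w : ℝ) : ℂ) := by
    rw [← setIntegral_eq_integral_of_forall_compl_eq_zero hdb0, ← integral_db_conj hC hSc,
      ← setIntegral_eq_integral_of_forall_compl_eq_zero hdb1, ← hP.image]
    rw [integral_image_eq_integral_abs_det_fderiv_smul volume hO.measurableSet
      (f' := fun u => (ContinuousLinearMap.toSpanSingleton ℂ (deriv h u)).restrictScalars ℝ)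
      (fun u hu => ((hP.diff.differentiableAt (hO.mem_nhds hu)).hasDerivAt.hasFDerivAt.restrictScalars
        ℝ).hasFDerivWithinAt) hP.inj]
    refine setIntegral_congr_fun hO.measurableSet fun u hu => ?_
    have hd : DifferentiableAt ℂ h u := hP.diff.differentiableAt (hO.mem_nhds hu)
    simp only [abs_det_toSpanSingleton']
    have h3 : FK.db (fun z => ((E z : ℝ) : ℂ)) u =
        conj (deriv h u) * FK.db (fun w => ((E' w : ℝ) : ℂ)) (h u) := by
      have h4 := db_comp (χ := fun w => ((E' w : ℝ) : ℂ)) (ψ := h) (u := u)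
        (hC.differentiable (by simp) _) hd
      have h5 : FK.db (fun z => ((E z : ℝ) : ℂ)) u =
          Pomp.db (fun u => ((E' (h u) : ℝ) : ℂ)) u := by
        have h6 : (fun z => ((E z : ℝ) : ℂ)) =ᶠ[𝓝 u] fun u => ((E' (h u) : ℝ) : ℂ) := by
          filter_upwards [hO.mem_nhds hu] with x hx
          rw [hE', hP.pf_h j E hx]
        unfold FK.db Pomp.db
        rw [h6.fderiv_eq]
      rw [h5, h4]
      rfl
    show FK.db (fun z => ((E z : ℝ) : ℂ)) u * (conj (h u) * deriv h u) = _
    rw [h3, Complex.real_smul, ← Complex.normSq_eq_norm_sq, ← Complex.mul_conj]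
    ring
  rw [key, integral_complex_ofReal]
  simp

end

/-- **AR** -/
theorem ar_proof : AR := by
  intro K hK f hf D hD hdis R₀ hR₀ hKR χ hχ
  classical
  set R₁ : ℝ := R₀ + 1 / 2 with hR₁
  have hR₁0 : 0 < R₁ := by positivity
  have hR₀₁ : R₀ < R₁ := by rw [hR₁]; linarith
  set Ω : Set ℂ := (closedBall (0:ℂ) R₁)ᶜ with hΩ
  have hΩo : IsOpen Ω := isClosed_closedBall.isOpen_compl
  have hKo : IsOpen Kᶜ := hK.isClosed.isOpen_compl
  have hΩK : Ω ⊆ Kᶜ := compl_subset_compl.2 (hKR.trans (closedBall_subset_closedBall hR₀₁.le))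
  set L : Set ℂ := (f '' Ω)ᶜ with hL
  have hLo : IsOpen (f '' Ω) := isOpen_image_of_inj hKo hf.diff hf.inj hΩo hΩK
  have hLc : IsCompact L := by
    refine (isCompact_closedBall (0:ℂ) (5 * R₁)).of_isClosed_subset hLo.isClosed_compl ?_
    intro w hw
    rw [mem_closedBall_zero_iff]
    refine hf.omitted hR₁0 hΩK fun z hz hzw => hw ⟨z, hz, hzw⟩
  have hcirc : ∀ z : ℂ, R₀ < ‖z‖ → ‖z‖ ≤ R₁ → f z ∈ L := by
    rintro z hz0 hz1 ⟨y, hy, hyz⟩
    have hzK : z ∈ Kᶜ := fun h => by
      have := hKR h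
      rw [mem_closedBall_zero_iff] at this
      linarith
    have := hf.inj (hΩK hy) hzK hyz
    subst this
    exact hy (mem_closedBall_zero_iff.2 hz1)
  have hUn : (⋃ _j : Fin 1, closedBall (0:ℂ) R₁) = closedBall 0 R₁ := iUnion_const _
  have hUL : (⋃ _j : Fin 1, L) = L := iUnion_const _
  have hann : IsCompact (closedBall (0:ℂ) (R₁ + 1) \ ball 0 R₁) :=
    (isCompact_closedBall _ _).diff isOpen_ball
  have hannK : (closedBall (0:ℂ) (R₁ + 1) \ ball 0 R₁) ⊆ Kᶜ := by
    rintro z ⟨-, hz⟩ hzK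
    have := hKR hzK
    rw [mem_closedBall_zero_iff] at this
    rw [mem_ball_zero_iff] at hz
    linarith
  have huc := hann.uniformContinuousOn_of_continuous (hf.diff.continuousOn.mono hannK)
  rw [Metric.uniformContinuousOn_iff] at huc
  have hP : EP (fun _ : Fin 1 => (0:ℂ)) (fun _ => R₁) (fun _ => L) f R₁ := by
    refine ⟨hR₁0, fun _ => hR₁0, fun i j hij => absurd (Subsingleton.elim i j) hij,
      fun _ => Subset.rfl, fun _ => hLc, fun _ => ?_,
      fun i j hij => absurd (Subsingleton.elim i j) hij, ?_, ?_, ?_, hf.norm, ?_⟩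
    · refine ⟨f (R₁ : ℂ), hcirc _ ?_ ?_⟩
      · rw [Complex.norm_real, Real.norm_of_nonneg hR₁0.le]
        exact hR₀₁
      · rw [Complex.norm_real, Real.norm_of_nonneg hR₁0.le]
    · rw [hUn]; exact hf.diff.mono hΩK
    · rw [hUn]; exact hf.inj.mono hΩK
    · rw [hUn, hUL, hL, compl_compl]
    · intro _ ε hε
      obtain ⟨δ, hδ, hδ'⟩ := huc ε hε
      refine ⟨min δ 1, lt_min hδ one_pos, fun z hz hzd => ?_⟩
      rw [hUn, mem_closedBall_zero_iff, not_le] at hz
      obtain ⟨y, hy, hyz⟩ := (infDist_lt_iff (nonempty_closedBall.2 hR₁0.le)).1 hzd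
      rw [mem_closedBall_zero_iff] at hy
      rw [dist_eq_norm] at hyz
      have hz1 : ‖z‖ ≤ ‖z - y‖ + ‖y‖ := by
        have := norm_add_le (z - y) y
        rwa [sub_add_cancel] at this
      have hz2 : ‖z‖ < R₁ + min δ 1 := by linarith
      have hz3 : ‖z‖ < R₁ + 1 := hz2.trans_le (by linarith [min_le_right δ 1])
      have hzpos : 0 < ‖z‖ := hR₁0.trans hz
      -- the radial projection
      set z' : ℂ := ((R₁ / ‖z‖ : ℝ) : ℂ) * z with hz'
      have hz'n : ‖z'‖ = R₁ := by
        rw [hz', norm_mul, Complex.norm_real, Real.norm_of_nonneg (by positivity)]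
        field_simp
      have hzz' : dist z z' < δ := by
        have e : z - z' = ((1 - R₁ / ‖z‖ : ℝ) : ℂ) * z := by
          rw [hz']; push_cast; ring
        rw [dist_eq_norm, e, norm_mul, Complex.norm_real, Real.norm_of_nonneg (by
          rw [sub_nonneg, div_le_one hzpos]; exact hz.le)]
        have e2 : (1 - R₁ / ‖z‖) * ‖z‖ = ‖z‖ - R₁ := by field_simp
        rw [e2]
        linarith [min_le_left δ 1]
      have h5 := hδ' z ⟨mem_closedBall_zero_iff.2 hz3.le, by
        rw [mem_ball_zero_iff]; linarith⟩ z' ⟨mem_closedBall_zero_iff.2 (by linarith), by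
        rw [mem_ball_zero_iff]; linarith⟩ hzz'
      exact (infDist_le_dist_of_mem (hcirc z' (by linarith) hz'n.le)).trans_lt h5
  -- the cutoff is one near the disk
  have hχ1 : ∀ z, infDist z (closedBall (0:ℂ) R₁) < 1 / 2 → χ z = 1 := by
    intro z hz
    obtain ⟨y, hy, hyz⟩ := (infDist_lt_iff (nonempty_closedBall.2 hR₁0.le)).1 hz
    refine hχ.one z ?_
    rw [mem_closedBall_zero_iff] at hy ⊢
    rw [dist_eq_norm] at hyz
    have hz1 : ‖z‖ ≤ ‖z - y‖ + ‖y‖ := by
      have := norm_add_le (z - y) y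
      rwa [sub_add_cancel] at this
    linarith
  have hχC : ContDiff ℝ 1 (fun z => ((χ z : ℝ) : ℂ)) := hχ.smooth.of_le (by norm_num)
  have hχc : Continuous χ := Complex.continuous_re.comp hχC.continuous
  have key := en4_eq hP 0 hχC hχ.supp (δ := 1 / 2) (by norm_num) hχ1
    (fun k hk => absurd (Subsingleton.elim k 0) hk)
  set E' : ℂ → ℝ := pfE (fun _ : Fin 1 => (0:ℂ)) (fun _ => R₁) (fun _ => L) f 0 χ with hE'
  have hC : ContDiff ℝ 1 (fun w => ((E' w : ℝ) : ℂ)) := hP.pf_contDiff 0 hχC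
    (δ := 1 / 2) (by norm_num) hχ1 (fun k hk => absurd (Subsingleton.elim k 0) hk)
  have hS : HasCompactSupport E' := hP.pf_far 0 hχ.supp
  have hEint : Integrable E' :=
    Continuous.integrable_of_hasCompactSupport (Complex.continuous_re.comp hC.continuous) hS
  have hEL : ∫ w in L, E' w = (volume L).toReal := by
    rw [setIntegral_congr_fun hLc.measurableSet (g := fun _ => (1:ℝ))
      (fun w hw => pfE_L 0 χ hw)]
    simp [Measure.real]
  have hEh : ∀ z ∈ Ω, E' (f z) = χ z := fun z hz => hP.pf_h 0 χ (by rw [hUn]; exact hz)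
  have hdet : ∀ u ∈ Ω, HasFDerivWithinAt f
      ((ContinuousLinearMap.toSpanSingleton ℂ (deriv f u)).restrictScalars ℝ : ℂ →L[ℝ] ℂ) Ω u :=
    fun u hu => ((hf.diff.differentiableAt (hKo.mem_nhds (hΩK hu))).hasDerivAt.hasFDerivAt.restrictScalars
        ℝ).hasFDerivWithinAt
  have hiΩ : IntegrableOn (fun z => χ z * ‖deriv f z‖ ^ 2) Ω := by
    have h1 := (integrableOn_image_iff_integrableOn_abs_det_fderiv_smul volume hΩo.measurableSet
      hdet (hf.inj.mono hΩK) E').1 hEint.integrableOn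
    refine h1.congr_fun (fun u hu => ?_) hΩo.measurableSet
    simp only [abs_det_toSpanSingleton']
    rw [hEh u hu, smul_eq_mul, mul_comm]
  have hEΩ : ∫ w in f '' Ω, E' w = ∫ z in Ω, χ z * ‖deriv f z‖ ^ 2 := by
    rw [integral_image_eq_integral_abs_det_fderiv_smul volume hΩo.measurableSet hdet
      (hf.inj.mono hΩK)]
    refine setIntegral_congr_fun hΩo.measurableSet fun u hu => ?_
    simp only [abs_det_toSpanSingleton']
    rw [hEh u hu, smul_eq_mul, mul_comm]
  have hEtot : ∫ w, E' w = (∫ z in Ω, χ z * ‖deriv f z‖ ^ 2) + (volume L).toReal := by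
    rw [← integral_add_compl hLo.measurableSet hEint, hEΩ, ← hL, hEL]
  -- the inner part
  set A : Set ℂ := Kᶜ ∩ closedBall 0 R₁ with hA
  have hAm : MeasurableSet A := hKo.measurableSet.inter isClosed_closedBall.measurableSet
  have harea := area_image hKo hf.diff hf.inj hAm inter_subset_left
  have hAL : f '' A ⊆ L := by
    rintro _ ⟨z, ⟨hzK, hz⟩, rfl⟩ ⟨y, hy, hyz⟩
    have := hf.inj (hΩK hy) hzK hyz
    subst this
    exact hy hz
  have hDL : D ⊆ L := fun w hw ⟨y, hy, hyw⟩ =>
    disjoint_left.1 hdis hw ⟨y, hΩK hy, hyw⟩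
  have hDA : Disjoint (f '' A) D :=
    (hdis.mono_right (image_mono inter_subset_left)).symm
  have hLfin : volume L ≠ ⊤ := hLc.measure_lt_top.ne
  have hsum : volume (f '' A) + volume D ≤ volume L := by
    rw [← measure_union hDA hD]
    exact measure_mono (union_subset hAL hDL)
  have hAfin : volume (f '' A) ≠ ⊤ := ne_top_of_le_ne_top hLfin (le_self_add.trans hsum)
  have hDfin : volume D ≠ ⊤ := ne_top_of_le_ne_top hLfin (le_add_self.trans hsum)
  have hdc : ContinuousOn (fun z => ‖deriv f z‖ ^ 2) Kᶜ :=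
    ((hf.diff.deriv hKo).continuousOn.norm).pow 2
  have hiA' : IntegrableOn (fun z => ‖deriv f z‖ ^ 2) A := by
    refine ⟨(hdc.mono inter_subset_left).aestronglyMeasurable hAm, ?_⟩
    rw [hasFiniteIntegral_iff_ofReal (Eventually.of_forall fun z => by positivity)]
    change ∫⁻ z in A, ENNReal.ofReal (‖deriv f z‖ ^ 2) < ⊤
    rw [harea]
    exact lt_top_iff_ne_top.2 hAfin
  have hχA : ∀ z ∈ A, χ z * ‖deriv f z‖ ^ 2 = ‖deriv f z‖ ^ 2 := by
    intro z hz
    rw [hχ.one z (closedBall_subset_closedBall (by rw [hR₁]; linarith) hz.2), one_mul]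
  have hiA : IntegrableOn (fun z => χ z * ‖deriv f z‖ ^ 2) A :=
    hiA'.congr_fun (fun z hz => (hχA z hz).symm) hAm
  have hintA : ∫ z in A, χ z * ‖deriv f z‖ ^ 2 = (volume (f '' A)).toReal := by
    rw [setIntegral_congr_fun hAm hχA, integral_eq_lintegral_of_nonneg_ae
      (Eventually.of_forall fun z => by positivity) hiA'.aestronglyMeasurable, harea]
  have hKeq : Kᶜ = Ω ∪ A := by
    ext z
    constructor
    · intro hz
      by_cases h1 : z ∈ closedBall (0:ℂ) R₁
      · exact Or.inr ⟨hz, h1⟩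
      · exact Or.inl h1
    · rintro (hz | hz)
      · exact hΩK hz
      · exact hz.1
  have hdj : Disjoint Ω A := disjoint_left.2 fun z hz hz' => hz hz'.2
  refine ⟨by rw [hKeq]; exact hiΩ.union hiA, ?_⟩
  have hen : enr Kᶜ χ (fun z => ‖deriv f z‖) =
      (∫ z in Ω, χ z * ‖deriv f z‖ ^ 2) + (volume (f '' A)).toReal := by
    unfold enr
    rw [hKeq, setIntegral_union hdj hAm hiΩ hiA, hintA]
  have har : ar χ f f = ∫ w, E' w := by
    unfold ar
    rw [key]
    ring
  have hreal : (volume (f '' A)).toReal + (volume D).toReal ≤ (volume L).toReal := by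
    rw [← ENNReal.toReal_add hAfin hDfin]
    exact ENNReal.toReal_mono hLfin hsum
  rw [hen, har, hEtot]
  linarith

end Vale.Agent.P116.Cl
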