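import Vale.Agent.P116.Cl.E0Spec
import Vale.Agent.P116.Ms.EN5
import Vale.Agent.P116.Ms.EN1

/-!
# Block E0: far cutoffs
-/

open Set Filter Topology Metric Bornology MeasureTheory

namespace Vale.Agent.P116.Cl

open FK Ms H906 EN5aux

/-- existence of far cutoffs -/
theorem cfEx : CfEx := by
  intro R₀ hR₀
  obtain ⟨χ, a', b', h⟩ := en2 0 (r := R₀ + 1) (b := R₀ + 2) (by linarith) (by linarith)
  exact ⟨χ, h.smooth, Cut.supp' h, fun z hz =>
    h.one z (closedBall_subset_closedBall h.h1.le hz), h.nn, h.le⟩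

end Vale.Agent.P116.Cl
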