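import Vale.Agent.P116.Cl.LatDef

/-!
P116, block [7]: `H^1` of the triangulated lattice is zero, and the cut lemma:
if `A` and its complement are connected, then the cut edges of `A` are connected through
triangles.
-/

namespace Vale.Agent.P116.Cl

lemma Adj.symm {a b : L} (h : Adj a b) : Adj b a := by
  obtain ⟨h1, h2, h3, h4⟩ := h
  refine ⟨h1.symm, ?_, ?_, ?_⟩
  · rw [abs_sub_comm]; exact h2
  · rw [abs_sub_comm]; exact h3
  · rw [abs_le] at *; constructor <;> linarith [h4.1, h4.2]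

lemma adj_cases {a b : L} (h : Adj a b) :
    b = a + (1, 0) ∨ b = a + (0, 1) ∨ b = a + (1, 1) ∨
      a = b + (1, 0) ∨ a = b + (0, 1) ∨ a = b + (1, 1) := by
  obtain ⟨h1, h2, h3, h4⟩ := h
  obtain ⟨a1, a2⟩ := a
  obtain ⟨b1, b2⟩ := b
  simp only [abs_le, ne_eq, Prod.mk.injEq, not_and, Prod.mk_add_mk] at *
  omega

lemma adj10 (a : L) : Adj a (a + (1, 0)) := by
  obtain ⟨a1, a2⟩ := a
  refine ⟨?_, ?_, ?_, ?_⟩ <;> simp

lemma adj01 (a : L) : Adj a (a + (0, 1)) := by
  obtain ⟨a1, a2⟩ := a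
  refine ⟨?_, ?_, ?_, ?_⟩ <;> simp

lemma adj11 (a : L) : Adj a (a + (1, 1)) := by
  obtain ⟨a1, a2⟩ := a
  refine ⟨?_, ?_, ?_, ?_⟩ <;> simp

/-- primitive of a function on `ℤ` -/
lemma exists_prim (g : ℤ → ZMod 2) (c : ZMod 2) :
    ∃ h : ℤ → ZMod 2, h 0 = c ∧ ∀ x, h (x + 1) = h x + g x := by
  classical
  refine ⟨fun n => c + (∑ i ∈ Finset.Ico 0 n, g i) - ∑ i ∈ Finset.Ico n 0, g i, by simp, ?_⟩
  intro x
  rcases lt_or_ge x 0 with hx | hx
  · have e1 : Finset.Ico (0:ℤ) (x + 1) = ∅ := by simp; omega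
    have e2 : Finset.Ico (0:ℤ) x = ∅ := by simp; omega
    have e3 : Finset.Ico x 0 = insert x (Finset.Ico (x + 1) 0) := by
      ext y; simp only [Finset.mem_Ico, Finset.mem_insert]; omega
    have e4 : x ∉ Finset.Ico (x + 1) 0 := by simp
    simp only [e1, e2, Finset.sum_empty, e3, Finset.sum_insert e4]
    ring
  · have e1 : Finset.Ico (x + 1) (0:ℤ) = ∅ := by simp; omega
    have e2 : Finset.Ico x (0:ℤ) = ∅ := by simp; omega
    have e3 : Finset.Ico 0 (x + 1) = insert x (Finset.Ico 0 x) := by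
      ext y; simp only [Finset.mem_Ico, Finset.mem_insert]; omega
    have e4 : x ∉ Finset.Ico 0 x := by simp
    simp only [e1, e2, Finset.sum_empty, e3, Finset.sum_insert e4]
    ring

lemma z2_self (x : ZMod 2) : x + x = 0 := by
  revert x; decide

lemma z2_eq {x y : ZMod 2} (h : x + y = 0) : x = y := by
  revert x y; decide

lemma z2_aux1 : ∀ A B C D X : ZMod 2, A + B + (B + D) = A + C + X → X = C + D := by decide

lemma z2_aux2 : ∀ X P B Q A : ZMod 2, X + (P + B) = Q + A + (A + B) → X = Q + P := by decide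

/-- `H^1 = 0`: a closed mod 2 cochain is exact -/
theorem coc (z : L → L → ZMod 2) (hs : ∀ a b, z a b = z b a)
    (hz : ∀ a b c, Tri a b c → z a b + z b c + z a c = 0) :
    ∃ f : L → ZMod 2, ∀ a b, Adj a b → z a b = f a + f b := by
  obtain ⟨h, -, hh⟩ := exists_prim (fun x => z (x, 0) (x + 1, 0)) 0
  choose v hv0 hv using fun x : ℤ => exists_prim (fun y => z (x, y) (x, y + 1)) (h x)
  -- vertical edges
  have V : ∀ x y, z (x, y) (x, y + 1) = v x y + v x (y + 1) := by
    intro x y; rw [hv x y, ← add_assoc, z2_self, zero_add]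
  -- triangles of a square
  have T1 : ∀ x y : ℤ, Tri (x, y) (x + 1, y) (x + 1, y + 1) := by
    intro x y
    exact ⟨by simpa using adj10 (x, y), by simpa using adj01 (x + 1, y),
      by simpa using adj11 (x, y)⟩
  have T2 : ∀ x y : ℤ, Tri (x, y) (x, y + 1) (x + 1, y + 1) := by
    intro x y
    exact ⟨by simpa using adj01 (x, y), by simpa using adj10 (x, y + 1),
      by simpa using adj11 (x, y)⟩
  have SQ : ∀ x y : ℤ, z (x, y) (x + 1, y) + z (x + 1, y) (x + 1, y + 1) =
      z (x, y) (x, y + 1) + z (x, y + 1) (x + 1, y + 1) := by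
    intro x y
    have h1 := hz _ _ _ (T1 x y)
    have h2 := hz _ _ _ (T2 x y)
    have h1' := z2_eq h1
    have h2' := z2_eq h2
    rw [h1', h2']
  -- horizontal edges
  have H : ∀ x y, z (x, y) (x + 1, y) = v x y + v (x + 1) y := by
    intro x y
    induction y using Int.induction_on with
    | zero =>
      rw [hv0, hv0, hh, ← add_assoc, z2_self, zero_add]
    | succ n ih =>
      have h1 := SQ x n
      rw [ih, V, V] at h1
      exact z2_aux1 _ _ _ _ _ h1
    | pred n ih =>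
      have h1 := SQ x (-(n:ℤ) - 1)
      have e : (-(n:ℤ) - 1 + 1) = -n := by ring
      rw [e] at h1
      have V1 := V x (-(n:ℤ) - 1)
      have V2 := V (x + 1) (-(n:ℤ) - 1)
      rw [e] at V1 V2
      rw [ih, V1, V2] at h1
      exact z2_aux2 _ _ _ _ _ h1
  have D : ∀ x y, z (x, y) (x + 1, y + 1) = v x y + v (x + 1) (y + 1) := by
    intro x y
    have h1 := z2_eq (hz _ _ _ (T1 x y))
    rw [← h1, H, V]
    have a1 := z2_self (v (x + 1) y)
    linear_combination a1
  refine ⟨fun p => v p.1 p.2, ?_⟩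
  have key : ∀ a b : L, (b = a + (1, 0) ∨ b = a + (0, 1) ∨ b = a + (1, 1)) →
      z a b = v a.1 a.2 + v b.1 b.2 := by
    rintro ⟨x, y⟩ b (rfl | rfl | rfl)
    · simpa using H x y
    · simpa using V x y
    · simpa using D x y
  intro a b hab
  rcases adj_cases hab with h | h | h | h | h | h
  · exact key a b (Or.inl h)
  · exact key a b (Or.inr (Or.inl h))
  · exact key a b (Or.inr (Or.inr h))
  · rw [hs, add_comm]; exact key b a (Or.inl h)
  · rw [hs, add_comm]; exact key b a (Or.inr (Or.inl h))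
  · rw [hs, add_comm]; exact key b a (Or.inr (Or.inr h))

/-- a vertex reached from `X` inside `X` -/
lemma reach_const {κ : Type*} {X : Set L} {f : L → κ}
    (hf : ∀ x ∈ X, ∀ y ∈ X, Adj x y → f x = f y) {a b : L} (ha : a ∈ X)
    (h : Relation.ReflTransGen (fun x y => y ∈ X ∧ Adj x y) a b) : b ∈ X ∧ f a = f b := by
  induction h with
  | refl => exact ⟨ha, rfl⟩
  | tail _ h2 ih => exact ⟨h2.1, ih.2.trans (hf _ ih.1 _ h2.1 h2.2)⟩

lemma LConn.const {κ : Type*} {X : Set L} (hX : LConn X) {f : L → κ}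
    (hf : ∀ x ∈ X, ∀ y ∈ X, Adj x y → f x = f y) {a b : L} (ha : a ∈ X) (hb : b ∈ X) :
    f a = f b :=
  (reach_const hf ha (hX a ha b hb)).2

/-- **cut lemma**: `A` and `Aᶜ` connected.  A function of the outer endpoint of the cut edges
which does not change in the triangles with one vertex in `A` is constant on all outer
neighbours of `A`. -/
theorem cut_const {κ : Type*} (A : Set L) (hA : LConn A) (hA' : LConn Aᶜ) (g : L → κ)
    (hg : ∀ a ∈ A, ∀ y ∉ A, ∀ y' ∉ A, Tri a y y' → g y = g y') :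
    ∀ a ∈ A, ∀ a' ∈ A, ∀ y ∉ A, ∀ y' ∉ A, Adj a y → Adj a' y' → g y = g y' := by
  classical
  intro a0 ha0 a1 ha1 y0 hy0 y1 hy1 h0 h1
  -- `S` = cut edges with outer value `g y0`
  set z : L → L → ZMod 2 := fun a b =>
    if (a ∈ A ∧ b ∉ A ∧ g b = g y0) ∨ (b ∈ A ∧ a ∉ A ∧ g a = g y0) then 1 else 0 with hzdef
  have zin : ∀ a ∈ A, ∀ b ∈ A, z a b = 0 := by
    intro a ha b hb; simp [hzdef, ha, hb]
  have zout : ∀ a ∉ A, ∀ b ∉ A, z a b = 0 := by
    intro a ha b hb; simp [hzdef, ha, hb]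
  have zc : ∀ a ∈ A, ∀ b ∉ A, z a b = if g b = g y0 then 1 else 0 := by
    intro a ha b hb; simp [hzdef, ha, hb]
  have zs : ∀ a b, z a b = z b a := by
    intro a b
    simp only [hzdef]
    congr 1
    exact propext or_comm
  have tsymm : ∀ {a b c : L}, Tri a b c → Tri a c b := fun h => ⟨h.2.2, h.2.1.symm, h.1⟩
  have trot : ∀ {a b c : L}, Tri a b c → Tri b c a := fun h => ⟨h.2.1, h.2.2.symm, h.1.symm⟩
  -- one vertex in `A`
  have K1 : ∀ a ∈ A, ∀ b ∉ A, ∀ c ∉ A, Tri a b c → z a b + z b c + z a c = 0 := by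
    intro a ha b hb c hc ht
    rw [zc a ha b hb, zc a ha c hc, zout b hb c hc, hg a ha b hb c hc ht, add_zero, z2_self]
  have K2 : ∀ a ∈ A, ∀ b ∈ A, ∀ c ∉ A, z a b + z b c + z a c = 0 := by
    intro a ha b hb c hc
    rw [zc a ha c hc, zc b hb c hc, zin a ha b hb, zero_add, z2_self]
  obtain ⟨f, hf⟩ := coc z zs (by
    intro a b c ht
    by_cases ha : a ∈ A <;> by_cases hb : b ∈ A <;> by_cases hc : c ∈ A
    · rw [zin a ha b hb, zin b hb c hc, zin a ha c hc]; simp
    · exact K2 a ha b hb c hc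
    · have := K2 a ha c hc b hb
      rw [zs c b] at this
      rw [← this]; ring
    · exact K1 a ha b hb c hc ht
    · have := K2 b hb c hc a ha
      rw [zs b a, zs c a] at this
      rw [← this]; ring
    · have := K1 b hb c hc a ha (trot ht)
      rw [zs b a, zs c a] at this
      rw [← this]; ring
    · have := K1 c hc a ha b hb (trot (trot ht))
      rw [zs c a, zs c b] at this
      rw [← this]; ring
    · rw [zout a ha b hb, zout b hb c hc, zout a ha c hc]; simp)
  have fA : ∀ x ∈ A, ∀ y ∈ A, f x = f y := by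
    intro x hx y hy
    exact hA.const (fun x hx y hy hxy => z2_eq (by rw [← hf x y hxy, zin x hx y hy])) hx hy
  have fA' : ∀ x ∈ Aᶜ, ∀ y ∈ Aᶜ, f x = f y := by
    intro x hx y hy
    exact hA'.const (fun x hx y hy hxy => z2_eq (by rw [← hf x y hxy, zout x hx y hy])) hx hy
  have e0 := hf a0 y0 h0
  rw [zc a0 ha0 y0 hy0, if_pos rfl] at e0
  have e1 := hf a1 y1 h1
  rw [zc a1 ha1 y1 hy1, ← fA a0 ha0 a1 ha1, ← fA' y0 hy0 y1 hy1, ← e0] at e1
  by_contra hne
  rw [if_neg (fun h => hne h.symm)] at e1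
  exact absurd e1 (by decide)

end Vale.Agent.P116.Cl
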