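import Vale.Agent.P116.Cl.E0Spec
import Vale.Agent.P116.Ms.EN4

/-!
# Block E0: change of variables to the picture (E0b1, E0b2, E0b3) (helper906)
-/

open Set Filter Topology Metric Bornology MeasureTheory
open scoped ComplexConjugate Real

namespace Vale.Agent.P116.Cl

open FK Ms H906

section

variable {n : ℕ} {c : Fin n → ℂ} {r : Fin n → ℝ} {L : Fin n → Set ℂ} {h : ℂ → ℂ} {B : ℝ}

lemma isOpen_U (c : Fin n → ℂ) (r : Fin n → ℝ) : IsOpen (⋃ j, closedBall (c j) (r j))ᶜ :=
  (isClosed_iUnion_of_finite fun j => isClosed_closedBall).isOpen_compl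

lemma hi_mem (hP : EP c r L h B) {z : ℂ} (hz : z ∈ (⋃ j, L j)ᶜ) :
    hi c r h z ∈ (⋃ j, closedBall (c j) (r j))ᶜ ∧ h (hi c r h z) = z := by
  rw [← hP.image] at hz
  exact ⟨Function.invFunOn_mem hz, Function.invFunOn_eq hz⟩

lemma hi_h (hP : EP c r L h B) {w : ℂ} (hw : w ∈ (⋃ j, closedBall (c j) (r j))ᶜ) :
    hi c r h (h w) = w := by
  have h1 : h w ∈ (⋃ j, L j)ᶜ := by
    rw [← hP.image]; exact mem_image_of_mem _ hw
  obtain ⟨h2, h3⟩ := hi_mem hP h1
  exact hP.inj h2 hw h3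

lemma hi_diff (hP : EP c r L h B) : DifferentiableOn ℂ (hi c r h) (⋃ j, L j)ᶜ := by
  rw [← hP.image]
  exact inv_diff (isOpen_U c r) hP.diff hP.inj

lemma isOpen_V (hP : EP c r L h B) : IsOpen (⋃ j, L j)ᶜ :=
  (isCompact_iUnion hP.Lc).isClosed.isOpen_compl

lemma deriv_ne (hP : EP c r L h B) {w : ℂ} (hw : w ∈ (⋃ j, closedBall (c j) (r j))ᶜ) :
    deriv h w ≠ 0 ∧ deriv (hi c r h) (h w) = (deriv h w)⁻¹ := by
  have h1 : h w ∈ (⋃ j, L j)ᶜ := by
    rw [← hP.image]; exact mem_image_of_mem _ hw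
  have hd : DifferentiableAt ℂ h w := hP.diff.differentiableAt ((isOpen_U c r).mem_nhds hw)
  have hd' : DifferentiableAt ℂ (hi c r h) (h w) :=
    (hi_diff hP).differentiableAt ((isOpen_V hP).mem_nhds h1)
  have h2 : HasDerivAt (fun u => hi c r h (h u)) (deriv (hi c r h) (h w) * deriv h w) w :=
    hd'.hasDerivAt.comp w hd.hasDerivAt
  have h3 : HasDerivAt (fun u => hi c r h (h u)) 1 w := by
    refine (hasDerivAt_id w).congr_of_eventuallyEq ?_
    filter_upwards [(isOpen_U c r).mem_nhds hw] with u hu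
    exact hi_h hP hu
  have h4 : deriv (hi c r h) (h w) * deriv h w = 1 := h2.unique h3
  have h5 : deriv h w ≠ 0 := right_ne_zero_of_mul_eq_one h4
  exact ⟨h5, eq_inv_of_mul_eq_one_left h4⟩

/-- the values near the disks are in the part where the cutoff is `1` -/
lemma near_one (hP : EP c r L h B) {R₀ : ℝ} (hL : ∀ j, L j ⊆ closedBall 0 R₀) :
    ∃ δ > 0, ∀ j, ∀ z, infDist z (closedBall (c j) (r j)) < δ →
      z ∈ (⋃ j, closedBall (c j) (r j))ᶜ → h z ∈ closedBall (0:ℂ) (R₀ + 1) := by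
  have h1 : ∀ j, ∃ δ > 0, ∀ z ∉ ⋃ j, closedBall (c j) (r j),
      infDist z (closedBall (c j) (r j)) < δ → infDist (h z) (L j) < 1 :=
    fun j => hP.bdry j 1 one_pos
  choose δ hδ hb using h1
  obtain ⟨d, hd, hdj⟩ : ∃ d > 0, ∀ j, d ≤ δ j := by
    by_cases hn : n = 0
    · subst hn
      exact ⟨1, one_pos, fun j => j.elim0⟩
    · have : Nonempty (Fin n) := ⟨⟨0, Nat.pos_of_ne_zero hn⟩⟩
      obtain ⟨j₀, hj₀⟩ := Finite.exists_min δ
      exact ⟨δ j₀, hδ j₀, hj₀⟩
  refine ⟨d, hd, fun j z hz hzU => ?_⟩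
  obtain ⟨y, hy, hy2⟩ := (infDist_lt_iff (hP.Lne j)).1 (hb j z hzU (hz.trans_le (hdj j)))
  have h2 := hL j hy
  rw [mem_closedBall] at h2 ⊢
  linarith [dist_triangle (h z) y 0]

lemma pb_far (hP : EP c r L h B) {χ : ℂ → ℝ} (hs : HasCompactSupport χ) :
    HasCompactSupport (pb c r h χ) := by
  obtain ⟨R₁, hR₁⟩ := hP.ev
  obtain ⟨R₂, hR₂⟩ := hs.isCompact.isBounded.subset_closedBall 0
  refine HasCompactSupport.intro (isCompact_closedBall (0:ℂ) (max B (max R₁ (R₂ + 1))))
    fun w hw => ?_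
  rw [mem_closedBall, dist_zero_right, not_le] at hw
  have h1 : B < ‖w‖ := (le_max_left _ _).trans_lt hw
  have h2 : R₁ ≤ ‖w‖ := ((le_max_left _ _).trans (le_max_right _ _)).trans hw.le
  have h3 : R₂ + 1 < ‖w‖ := ((le_max_right _ _).trans (le_max_right _ _)).trans_lt hw
  have h4 : w ∉ ⋃ j, closedBall (c j) (r j) := by
    intro hmem
    obtain ⟨j, hj⟩ := mem_iUnion.1 hmem
    have := hP.sub j hj
    rw [mem_closedBall, dist_zero_right] at this
    linarith
  unfold pb
  rw [if_neg h4]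
  by_contra hne
  have h5 : h w ∈ tsupport χ := subset_tsupport _ hne
  have h6 := hR₂ h5
  rw [mem_closedBall, dist_zero_right] at h6
  have h7 := hR₁ w h2
  have h8 : ‖w‖ ≤ ‖h w - w‖ + ‖h w‖ := by
    have := norm_sub_le (h w) (h w - w)
    rw [sub_sub_cancel] at this
    linarith
  linarith

/-- **E0b1** -/
theorem e0b1 : E0b1 := by
  intro n c r L h B hP R₀ hR₀ hL χ hχ
  classical
  obtain ⟨δ, hδ, hnear⟩ := near_one hP hL
  have hone : ∀ j, ∀ z, infDist z (closedBall (c j) (r j)) < δ → pb c r h χ z = 1 := by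
    intro j z hz
    unfold pb
    split_ifs with hz2
    · rfl
    · exact hχ.one _ (hnear j z hz hz2)
  refine ⟨?_, pb_far hP hχ.supp, δ, hδ, hone⟩
  rw [contDiff_iff_contDiffAt]
  intro w
  by_cases hw : w ∈ ⋃ j, closedBall (c j) (r j)
  · obtain ⟨k, hk⟩ := mem_iUnion.1 hw
    refine contDiffAt_const (c := (1 : ℂ)) |>.congr_of_eventuallyEq ?_
    have h2 : infDist w (closedBall (c k) (r k)) < δ := by
      rw [infDist_zero_of_mem hk]; exact hδ
    filter_upwards [(continuous_infDist_pt _).continuousAt.eventually_lt continuousAt_const h2]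
      with u hu
    rw [hone k u hu, Complex.ofReal_one]
  · have h2 : (fun w => ((pb c r h χ w : ℝ) : ℂ)) =ᶠ[𝓝 w] fun w => ((χ (h w) : ℝ) : ℂ) := by
      filter_upwards [(isOpen_U c r).mem_nhds hw] with u hu
      unfold pb
      rw [if_neg hu]
    refine ContDiffAt.congr_of_eventuallyEq ?_ h2
    have h4 : AnalyticAt ℂ h w := hP.diff.analyticAt ((isOpen_U c r).mem_nhds hw)
    exact hχ.smooth.contDiffAt.comp w ((h4.contDiffAt (n := 2)).restrict_scalars ℝ)

/-- **E0b2** -/
theorem e0b2 : E0b2 := by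
  intro n c r L h B hP R₀ hR₀ hL χ hχ g
  classical
  have hO := isOpen_U c r
  obtain ⟨hC, -, δ, hδ, hone⟩ := e0b1 hP hR₀ hL hχ
  have hdb0 : ∀ z, z ∉ (⋃ j, L j)ᶜ →
      db (fun z => ((χ z : ℝ) : ℂ)) z * (conj (g z) * deriv (hi c r h) z) = 0 := by
    intro z hz
    rw [mem_compl_iff, not_not] at hz
    obtain ⟨k, hk⟩ := mem_iUnion.1 hz
    have hk' := hL k hk
    have : db (fun z => ((χ z : ℝ) : ℂ)) z = 0 := by
      refine fkdb_const (a := (1 : ℂ)) ?_
      have h1 : ball (0:ℂ) (R₀ + 1) ∈ 𝓝 z := by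
        refine isOpen_ball.mem_nhds ?_
        rw [mem_closedBall] at hk'
        rw [mem_ball]
        linarith
      filter_upwards [h1] with u hu
      rw [hχ.one u (ball_subset_closedBall hu), Complex.ofReal_one]
    rw [this, zero_mul]
  have hdb1 : ∀ w, w ∉ (⋃ j, closedBall (c j) (r j))ᶜ →
      db (fun z => ((pb c r h χ z : ℝ) : ℂ)) w * conj (g (h w)) = 0 := by
    intro w hw
    rw [mem_compl_iff, not_not] at hw
    obtain ⟨k, hk⟩ := mem_iUnion.1 hw
    have : db (fun z => ((pb c r h χ z : ℝ) : ℂ)) w = 0 := by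
      refine fkdb_const (a := (1 : ℂ)) ?_
      have h2 : infDist w (closedBall (c k) (r k)) < δ := by
        rw [infDist_zero_of_mem hk]; exact hδ
      filter_upwards [(continuous_infDist_pt _).continuousAt.eventually_lt continuousAt_const h2]
        with u hu
      rw [hone k u hu, Complex.ofReal_one]
    rw [this, zero_mul]
  rw [← setIntegral_eq_integral_of_forall_compl_eq_zero hdb0,
    ← setIntegral_eq_integral_of_forall_compl_eq_zero hdb1, ← hP.image]
  rw [integral_image_eq_integral_abs_det_fderiv_smul volume hO.measurableSet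
    (f' := fun u => (ContinuousLinearMap.toSpanSingleton ℂ (deriv h u)).restrictScalars ℝ)
    (fun u hu => ((hP.diff.differentiableAt (hO.mem_nhds hu)).hasDerivAt.hasFDerivAt.restrictScalars
      ℝ).hasFDerivWithinAt) hP.inj]
  refine setIntegral_congr_fun hO.measurableSet fun u hu => ?_
  have hd : DifferentiableAt ℂ h u := hP.diff.differentiableAt (hO.mem_nhds hu)
  obtain ⟨hne, hinv⟩ := deriv_ne hP hu
  simp only [abs_det_toSpanSingleton']
  have h3 : db (fun z => ((pb c r h χ z : ℝ) : ℂ)) u =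
      conj (deriv h u) * db (fun w => ((χ w : ℝ) : ℂ)) (h u) := by
    have h4 := db_comp (χ := fun w => ((χ w : ℝ) : ℂ)) (ψ := h) (u := u)
      (hχ.smooth.differentiable (by simp) _) hd
    have h5 : db (fun z => ((pb c r h χ z : ℝ) : ℂ)) u =
        Pomp.db (fun u => ((χ (h u) : ℝ) : ℂ)) u := by
      have h6 : (fun z => ((pb c r h χ z : ℝ) : ℂ)) =ᶠ[𝓝 u] fun u => ((χ (h u) : ℝ) : ℂ) := by
        filter_upwards [hO.mem_nhds hu] with x hx
        unfold pb
        rw [if_neg hx]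
      unfold FK.db Pomp.db
      rw [h6.fderiv_eq]
    rw [h5, h4]
    rfl
  rw [h3, hinv, Complex.real_smul, ← Complex.normSq_eq_norm_sq, ← Complex.mul_conj]
  field_simp

/-- **E0b3** -/
theorem e0b3 : E0b3 := by
  intro n c r L h B hP χ ρ
  have hO := isOpen_U c r
  have hf' : ∀ u ∈ (⋃ j, closedBall (c j) (r j))ᶜ, HasFDerivWithinAt h
      ((ContinuousLinearMap.toSpanSingleton ℂ (deriv h u)).restrictScalars ℝ : ℂ →L[ℝ] ℂ)
      (⋃ j, closedBall (c j) (r j))ᶜ u := fun u hu =>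
    ((hP.diff.differentiableAt (hO.mem_nhds hu)).hasDerivAt.hasFDerivAt.restrictScalars
      ℝ).hasFDerivWithinAt
  refine ⟨?_, ?_, ?_⟩
  · unfold enr
    rw [← hP.image, integral_image_eq_integral_abs_det_fderiv_smul volume hO.measurableSet hf'
      hP.inj]
    refine setIntegral_congr_fun hO.measurableSet fun u hu => ?_
    simp only [abs_det_toSpanSingleton', smul_eq_mul]
    ring
  · intro hi
    rw [← hP.image, integrableOn_image_iff_integrableOn_abs_det_fderiv_smul volume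
      hO.measurableSet hf' hP.inj] at hi
    refine hi.congr_fun (fun u hu => ?_) hO.measurableSet
    simp only [abs_det_toSpanSingleton', smul_eq_mul]
    ring
  · intro u hu
    have hmaps : ∀ w ∈ (⋃ j, closedBall (c j) (r j))ᶜ, h w ∈ (⋃ j, L j)ᶜ := by
      intro w hw
      rw [← hP.image]; exact mem_image_of_mem _ hw
    refine ⟨?_, fun z hz => mul_nonneg (hu.nn _ (hmaps z hz)) (norm_nonneg _), ?_⟩
    · refine (hu.cont.comp hP.diff.continuousOn hmaps).mul ?_
      exact ((hP.diff.deriv hO).continuousOn).norm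
    · intro a ha ε hε
      -- choose `e` small
      set m := ρ (h a) with hm
      set k := ‖deriv h a‖ with hk
      have hm0 : 0 ≤ m := hu.nn _ (hmaps a ha)
      have hk0 : 0 ≤ k := norm_nonneg _
      obtain ⟨e, he, he1, he2⟩ : ∃ e > 0, e ≤ 1 ∧ e * (m + k + 1) ≤ ε := by
        refine ⟨min 1 (ε / (m + k + 1)), lt_min one_pos (by positivity), min_le_left _ _, ?_⟩
        have : min 1 (ε / (m + k + 1)) ≤ ε / (m + k + 1) := min_le_right _ _
        rw [le_div_iff₀ (by positivity)] at this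
        exact this
      obtain ⟨δ, hδ, hδl⟩ := hu.lip (h a) (hmaps a ha) e he
      have hstr : HasStrictDerivAt h (deriv h a) a :=
        (hP.diff.analyticAt (hO.mem_nhds ha)).hasStrictDerivAt
      have h1 : ∀ᶠ p : ℂ × ℂ in 𝓝 (a, a), ‖h p.1 - h p.2 - deriv h a * (p.1 - p.2)‖ ≤
          e * ‖p.1 - p.2‖ := by
        have := hstr.isLittleO.def he
        filter_upwards [this] with p hp
        simpa [mul_comm] using hp
      have h2 : ∀ᶠ x in 𝓝 a, h x ∈ ball (h a) δ :=
        (hP.diff.continuousOn.continuousAt (hO.mem_nhds ha)) (ball_mem_nhds _ hδ)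
      obtain ⟨δ₁, hδ₁, h3⟩ := Metric.eventually_nhds_iff_ball.1 h1
      obtain ⟨δ₂, hδ₂, h4⟩ := Metric.eventually_nhds_iff_ball.1 h2
      refine ⟨min δ₁ δ₂, lt_min hδ₁ hδ₂, fun x hx y hy => ?_⟩
      have hx1 : x ∈ ball a δ₁ := ball_subset_ball (min_le_left _ _) hx
      have hy1 : y ∈ ball a δ₁ := ball_subset_ball (min_le_left _ _) hy
      have hx2 : x ∈ ball a δ₂ := ball_subset_ball (min_le_right _ _) hx
      have hy2 : y ∈ ball a δ₂ := ball_subset_ball (min_le_right _ _) hy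
      have h5 := h3 (x, y) (by
        rw [mem_ball, Prod.dist_eq, max_lt_iff]
        exact ⟨hx1, hy1⟩)
      have h6 := hδl (h x) (h4 x hx2) (h y) (h4 y hy2)
      have h7 : ‖h x - h y‖ ≤ (k + e) * ‖x - y‖ := by
        have e1 : h x - h y = (h x - h y - deriv h a * (x - y)) + deriv h a * (x - y) := by ring
        rw [e1]
        refine (norm_add_le _ _).trans ?_
        rw [norm_mul]
        have : ‖h x - h y - deriv h a * (x - y)‖ ≤ e * ‖x - y‖ := h5
        rw [← hk]
        nlinarith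
      refine h6.trans ?_
      have h8 : (m + e) * (k + e) ≤ m * k + ε := by
        nlinarith
      calc (m + e) * ‖h x - h y‖ ≤ (m + e) * ((k + e) * ‖x - y‖) := by gcongr
        _ = ((m + e) * (k + e)) * ‖x - y‖ := by ring
        _ ≤ (m * k + ε) * ‖x - y‖ := by gcongr

end

end Vale.Agent.P116.Cl
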