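import Vale.Agent.P116.Cl.E0Spec
import Vale.Agent.P116.Ms.EN3

/-!
# Block E0c: symmetry of the mixed area
-/

open Set Filter Topology Metric Bornology MeasureTheory
open scoped ComplexConjugate Real

namespace Vale.Agent.P116.Cl

open FK Slow Ms

/-- the points near which `χ` is not constant -/
def nlc (χ : ℂ → ℝ) : Set ℂ := {z | ¬ ∃ t : ℝ, ∀ᶠ y in 𝓝 z, χ y = t}

lemma isClosed_nlc (χ : ℂ → ℝ) : IsClosed (nlc χ) := by
  rw [← isOpen_compl_iff, isOpen_iff_mem_nhds]
  intro z hz
  simp only [nlc, mem_compl_iff, mem_ofPred_eq, not_not] at hz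
  obtain ⟨t, ht⟩ := hz
  have h1 := eventually_eventually_nhds.2 ht
  filter_upwards [h1] with y hy
  simp only [nlc, mem_compl_iff, mem_ofPred_eq, not_not]
  exact ⟨t, hy⟩

lemma nlc_subset (χ : ℂ → ℝ) : nlc χ ⊆ tsupport χ := by
  intro z hz
  by_contra h
  exact hz ⟨0, notMem_tsupport_iff_eventuallyEq.1 h⟩

/-- the derivative of the conjugate of a holomorphic function -/
lemma hasFDerivAt_conj_comp {b : ℂ → ℂ} {z : ℂ} (h : DifferentiableAt ℂ b z) :
    HasFDerivAt (fun w => conj (b w)) (Complex.conjCLE.toContinuousLinearMap.comp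
      (((1 : ℂ →L[ℂ] ℂ).smulRight (deriv b z)).restrictScalars ℝ)) z :=
  Complex.conjCLE.toContinuousLinearMap.hasFDerivAt.comp z
    ((h.hasDerivAt.hasFDerivAt).restrictScalars ℝ)

/-- block E0c -/
theorem e0c : E0c := by
  intro V hV a b ha hb χ hsm hcs hloc
  set e : ℂ → ℂ := fun z => ((χ z : ℝ) : ℂ) with he
  set K := nlc χ with hKdef
  have hK : IsCompact K := hcs.isCompact.of_isClosed_subset (isClosed_nlc χ) (nlc_subset χ)
  have hKV : K ⊆ V := by
    intro z hz
    by_contra h
    exact hz (hloc z h)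
  have hconst : ∀ z ∉ K, ∃ t : ℂ, e =ᶠ[𝓝 z] fun _ => t := by
    intro z hz
    simp only [hKdef, nlc, mem_ofPred_eq, not_not] at hz
    obtain ⟨t, ht⟩ := hz
    refine ⟨(t : ℂ), ?_⟩
    filter_upwards [ht] with y hy
    simp [he, hy]
  have hfe : ContDiff ℝ 1 (fderiv ℝ e) := hsm.fderiv_right (by norm_num)
  have hD : ContDiff ℝ 1 (db e) := by unfold db; fun_prop
  have hd : ContDiff ℝ 1 (dz e) := by unfold dz; fun_prop
  have hD0 : ∀ z ∉ K, db e z = 0 := by
    intro z hz
    obtain ⟨a, ha⟩ := hconst z hz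
    rw [db_congr ha, db_const]
  have hd0 : ∀ z ∉ K, dz e z = 0 := by
    intro z hz
    obtain ⟨a, ha⟩ := hconst z hz
    rw [dz_congr ha, dz_const]
  have hdD : ∀ z, dz e z = conj (db e z) := by
    intro z
    rw [dz_eq_conj (hsm.differentiable (by norm_num))]
    congr 2
    funext w
    simp [he]
  have ha1 : ContDiffOn ℝ 1 a V := ((ha.contDiffOn (n := 1) hV).restrict_scalars ℝ)
  have hb1 : ContDiffOn ℝ 1 b V := ((hb.contDiffOn (n := 1) hV).restrict_scalars ℝ)
  have hbc : ContDiffOn ℝ 1 (fun z => conj (b z)) V := Complex.conjCLE.contDiff.comp_contDiffOn hb1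
  have ha2 : ContDiffOn ℝ 1 (deriv a) V :=
    (((ha.deriv hV).contDiffOn (n := 1) hV).restrict_scalars ℝ)
  have hb2 : ContDiffOn ℝ 1 (deriv b) V :=
    (((hb.deriv hV).contDiffOn (n := 1) hV).restrict_scalars ℝ)
  have hb2c : ContDiffOn ℝ 1 (fun z => conj (deriv b z)) V :=
    Complex.conjCLE.contDiff.comp_contDiffOn hb2
  have hk1 : ContDiffOn ℝ 1 (fun z => conj (b z) * a z) V := hbc.mul ha1
  have v1c := contDiff_mul_of hV hK.isClosed hKV hD hD0 hk1
  have v2c := contDiff_mul_of hV hK.isClosed hKV hd hd0 hk1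
  have v1s := compSupp_of (k := fun z => conj (b z) * a z) hK hD0
  have v2s := compSupp_of (k := fun z => conj (b z) * a z) hK hd0
  have I1 := int_dz v1c v1s
  have I2 := en1 v2c v2s
  -- the pointwise identity
  have key : ∀ z, dz (fun z => db e z * (conj (b z) * a z)) z -
      db (fun z => dz e z * (conj (b z) * a z)) z =
      2 * (db e z * (conj (b z) * deriv a z) - dz e z * (conj (deriv b z) * a z)) := by
    intro z
    by_cases hz : z ∈ K
    · have hzA := hV.mem_nhds (hKV hz)
      have k1 : HasFDerivAt (db e) (fderiv ℝ (db e) z) z :=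
        (hD.differentiable (by simp) z).hasFDerivAt
      have k2 : HasFDerivAt (dz e) (fderiv ℝ (dz e) z) z :=
        (hd.differentiable (by simp) z).hasFDerivAt
      have k3 := hasFDerivAt_conj_comp (hb.differentiableAt hzA)
      have k4 : HasFDerivAt a (((1 : ℂ →L[ℂ] ℂ).smulRight (deriv a z)).restrictScalars ℝ) z :=
        ((ha.differentiableAt hzA).hasDerivAt.hasFDerivAt).restrictScalars ℝ
      have k5 := k1.mul (k3.mul k4)
      have k6 := k2.mul (k3.mul k4)
      have k5' : fderiv ℝ (fun z => db e z * (conj (b z) * a z)) z = _ := k5.fderiv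
      have k6' : fderiv ℝ (fun z => dz e z * (conj (b z) * a z)) z = _ := k6.fderiv
      have hs := sym2 hsm z
      have m0 : dz (db e) z = fderiv ℝ (db e) z 1 - Complex.I * fderiv ℝ (db e) z Complex.I := rfl
      have m0' : db (dz e) z = fderiv ℝ (dz e) z 1 + Complex.I * fderiv ℝ (dz e) z Complex.I := rfl
      rw [m0, m0'] at hs
      have m1 : dz (fun z => db e z * (conj (b z) * a z)) z =
        fderiv ℝ (fun z => db e z * (conj (b z) * a z)) z 1 -
          Complex.I * fderiv ℝ (fun z => db e z * (conj (b z) * a z)) z Complex.I := rfl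
      have m2 : db (fun z => dz e z * (conj (b z) * a z)) z =
        fderiv ℝ (fun z => dz e z * (conj (b z) * a z)) z 1 +
          Complex.I * fderiv ℝ (fun z => dz e z * (conj (b z) * a z)) z Complex.I := rfl
      rw [m1, m2, k5', k6']
      simp
      linear_combination (conj (b z) * a z) * hs + (-(db e z * conj (b z) * deriv a z) +
        db e z * conj (deriv b z) * a z -
        conj (b z) * deriv a z * dz e z + conj (deriv b z) * a z * dz e z) * Complex.I_sq
    · have h1 : (fun z => db e z * (conj (b z) * a z)) =ᶠ[𝓝 z] fun _ => 0 := by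
        filter_upwards [hK.isClosed.isOpen_compl.mem_nhds hz] with w hw
        rw [hD0 w hw, zero_mul]
      have h2 : (fun z => dz e z * (conj (b z) * a z)) =ᶠ[𝓝 z] fun _ => 0 := by
        filter_upwards [hK.isClosed.isOpen_compl.mem_nhds hz] with w hw
        rw [hd0 w hw, zero_mul]
      rw [dz_congr h1, dz_const, db_congr h2, db_const, hD0 z hz, hd0 z hz]
      ring
  have hint1 : Integrable (dz fun z => db e z * (conj (b z) * a z)) := by
    refine (continuous_dz v1c).integrable_of_hasCompactSupport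
      (HasCompactSupport.intro hK fun z hz => ?_)
    have h1 : (fun z => db e z * (conj (b z) * a z)) =ᶠ[𝓝 z] fun _ => 0 := by
      filter_upwards [hK.isClosed.isOpen_compl.mem_nhds hz] with w hw
      rw [hD0 w hw, zero_mul]
    rw [dz_congr h1, dz_const]
  have hint2 : Integrable (db fun z => dz e z * (conj (b z) * a z)) := by
    refine (Ms.continuous_db v2c).integrable_of_hasCompactSupport
      (HasCompactSupport.intro hK fun z hz => ?_)
    have h1 : (fun z => dz e z * (conj (b z) * a z)) =ᶠ[𝓝 z] fun _ => 0 := by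
      filter_upwards [hK.isClosed.isOpen_compl.mem_nhds hz] with w hw
      rw [hd0 w hw, zero_mul]
    rw [db_congr h1, db_const]
  have hint5 : Integrable fun z => db e z * (conj (b z) * deriv a z) :=
    (contDiff_mul_of hV hK.isClosed hKV hD hD0
      (hbc.mul ha2)).continuous.integrable_of_hasCompactSupport
      (compSupp_of (k := fun z => conj (b z) * deriv a z) hK hD0)
  have hint4 : Integrable fun z => dz e z * (conj (deriv b z) * a z) :=
    (contDiff_mul_of hV hK.isClosed hKV hd hd0
      (hb2c.mul ha1)).continuous.integrable_of_hasCompactSupport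
      (compSupp_of (k := fun z => conj (deriv b z) * a z) hK hd0)
  have I3 : ∫ z, (db e z * (conj (b z) * deriv a z) - dz e z * (conj (deriv b z) * a z)) = 0 := by
    have h1 : ∫ z, (dz (fun z => db e z * (conj (b z) * a z)) z -
      db (fun z => dz e z * (conj (b z) * a z)) z) = 0 := by
      rw [integral_sub hint1 hint2, I1, I2, sub_zero]
    simp_rw [key] at h1
    rw [integral_const_mul] at h1
    exact (mul_eq_zero.1 h1).resolve_left two_ne_zero
  have I4 : ∫ z, db e z * (conj (b z) * deriv a z) = ∫ z, dz e z * (conj (deriv b z) * a z) := by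
    rw [integral_sub hint5 hint4] at I3
    exact sub_eq_zero.1 I3
  have I5 : ∫ z, dz e z * (conj (deriv b z) * a z) =
      conj (∫ z, db e z * (conj (a z) * deriv b z)) := by
    rw [← integral_conj]
    refine integral_congr_ae (Eventually.of_forall fun z => ?_)
    simp only [hdD, map_mul, Complex.conj_conj]
    ring
  change -(1 / 2) * (∫ z, db e z * (conj (b z) * deriv a z)).re =
    -(1 / 2) * (∫ z, db e z * (conj (a z) * deriv b z)).re
  rw [I4, I5, Complex.conj_re]

end Vale.Agent.P116.Cl
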