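import Vale.Agent.P116.Cl.E0Spec
import Vale.Agent.P116.Ms.EN5
import Vale.Agent.P116.Ms.EN1

/-!
# Block E0: the area of a map which vanishes at infinity
-/

open Set Filter Topology Metric Bornology MeasureTheory
open scoped ComplexConjugate Real

namespace Vale.Agent.P116.Cl

open FK Ms H906 EN5aux

lemma e0d_suppC {R₀ : ℝ} {χ : ℂ → ℝ} (hχ : Cf R₀ χ) :
    HasCompactSupport (fun z => ((χ z : ℝ) : ℂ)) := by
  refine hχ.supp.mono' ?_
  intro z hz
  refine subset_closure ?_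
  rw [Function.mem_support] at hz ⊢
  intro h
  exact hz (by simp [h])

lemma e0d_near {R₀ : ℝ} {χ : ℂ → ℝ} (hχ : Cf R₀ χ) {z : ℂ} (hz : ‖z‖ ≤ R₀) :
    ∀ᶠ y in 𝓝 z, χ y = 1 := by
  filter_upwards [ball_mem_nhds z one_pos] with y hy
  refine hχ.one y ?_
  rw [mem_closedBall, dist_zero_right]
  rw [mem_ball, dist_eq_norm] at hy
  have := norm_le_norm_add_norm_sub' y z
  have h2 : ‖y‖ ≤ ‖z‖ + ‖y - z‖ := by
    simpa using norm_add_le z (y - z)
  linarith

/-- E0d -/
theorem e0d : E0d := by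
  intro R₀ hR₀ d hd hlim χ hχ
  refine le_of_forall_pos_le_add fun ε hε => ?_
  rw [zero_add]
  set h : ℂ → ℂ := fun z => d z + z with hh_def
  have hΩ : IsOpen {z : ℂ | R₀ < ‖z‖} := isOpen_lt continuous_const continuous_norm
  have hh : DifferentiableOn ℂ h {z | R₀ < ‖z‖} := hd.add differentiableOn_id
  obtain ⟨S, hS⟩ : ∃ S, tsupport χ ⊆ closedBall (0 : ℂ) S :=
    (hχ.supp : IsCompact (tsupport χ)).isBounded.subset_closedBall 0
  set κ : ℝ := Real.sqrt (ε / (4 * π)) with hκd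
  have hκ : 0 < κ := Real.sqrt_pos.2 (by positivity)
  have hκ2 : 4 * π * κ ^ 2 = ε := by
    rw [hκd, Real.sq_sqrt (by positivity)]
    field_simp
  obtain ⟨T, hT⟩ : ∃ T : ℝ, ∀ z : ℂ, T ≤ ‖z‖ → ‖d z‖ ≤ κ := by
    have h1 : ∀ᶠ z in cobounded ℂ, ‖d z‖ < κ := by
      have := (tendsto_norm_zero.comp hlim).eventually (gt_mem_nhds hκ)
      simpa using this
    rw [← comap_norm_atTop, eventually_comap] at h1
    obtain ⟨T, hT⟩ := eventually_atTop.1 h1
    exact ⟨T, fun z hz => (hT _ hz z rfl).le⟩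
  set ρ : ℝ := max (2 * R₀ + 2) (max (2 * T) (S + 1)) with hρd
  have hρ1 : 2 * R₀ + 2 ≤ ρ := le_max_left _ _
  have hρ2 : 2 * T ≤ ρ := (le_max_left _ _).trans (le_max_right _ _)
  have hρ3 : S + 1 ≤ ρ := (le_max_right _ _).trans (le_max_right _ _)
  obtain ⟨χ', a', b', hχ'⟩ := en2 0 (r := ρ) (b := 2 * ρ) (by linarith) (by linarith)
  have hone : ∀ z : ℂ, ‖z‖ ≤ ρ → χ' z = 1 := fun z hz => hχ'.one z (by
    rw [mem_closedBall, dist_zero_right]
    linarith [hχ'.h1])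
  have far := far_term hR₀ hh hρ1 hκ.le (fun z hz => by
    have : h z - z = d z := by simp [hh_def]
    rw [this]
    exact hT z (by linarith)) hχ'
  have c1 : ContDiff ℝ 1 (fun z => ((χ z : ℝ) : ℂ)) := hχ.smooth.of_le (by norm_num)
  have c2 : ContDiff ℝ 1 (fun z => ((χ' z : ℝ) : ℂ)) := Cut.cd hχ'
  have s1 : HasCompactSupport (fun z => ((χ z : ℝ) : ℂ)) := e0d_suppC hχ
  have s2 : HasCompactSupport (fun z => ((χ' z : ℝ) : ℂ)) := Cut.supp hχ'
  have n1 : ∀ z, z ∉ {z : ℂ | R₀ < ‖z‖} → ∀ᶠ y in 𝓝 z, ((χ y : ℝ) : ℂ) = 1 := by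
    intro z hz
    filter_upwards [e0d_near hχ (not_lt.1 hz)] with y hy
    rw [hy]
    simp
  have n2 : ∀ z, z ∉ {z : ℂ | R₀ < ‖z‖} → ∀ᶠ y in 𝓝 z, ((χ' y : ℝ) : ℂ) = 1 := by
    intro z hz
    filter_upwards [ball_mem_nhds z one_pos] with y hy
    rw [hone y]
    · simp
    · rw [mem_ball, dist_eq_norm] at hy
      have h2 : ‖y‖ ≤ ‖z‖ + ‖y - z‖ := by
        simpa using norm_add_le z (y - z)
      have : ‖z‖ ≤ R₀ := not_lt.1 hz
      linarith
  have key := energy_id en1 hΩ hh (ψ := fun z => ((χ z : ℝ) : ℂ) - ((χ' z : ℝ) : ℂ)) (c1.sub c2)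
    (s1.sub s2) (fun z hz => by
      filter_upwards [n1 z hz, n2 z hz] with y h1 h2
      rw [h1, h2, sub_self])
  -- the integrals
  have hA : ∀ z ∈ {z : ℂ | R₀ < ‖z‖}, AnalyticAt ℂ h z := fun z hz' =>
    hh.analyticAt (hΩ.mem_nhds hz')
  have hGc : ContinuousOn (fun z => starRingEnd ℂ (h z - z) * (deriv h z - 1))
      {z | R₀ < ‖z‖} := fun z hz' =>
    ((Complex.continuous_conj.continuousAt.comp
      ((hA z hz').continuousAt.sub continuousAt_id)).mul
      ((hA z hz').deriv.continuousAt.sub continuousAt_const)).continuousWithinAt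
  have i1 : Integrable (fun z => db (fun z => ((χ z : ℝ) : ℂ)) z *
      (starRingEnd ℂ (h z - z) * (deriv h z - 1))) :=
    int_ext hΩ (db_continuous c1) (db_supp s1) hGc fun z hz' => db_eventually (n1 z hz')
  have i2 : Integrable (fun z => db (fun z => ((χ' z : ℝ) : ℂ)) z *
      (starRingEnd ℂ (h z - z) * (deriv h z - 1))) :=
    int_ext hΩ (db_continuous c2) (db_supp s2) hGc fun z hz' => db_eventually (n2 z hz')
  have e1 : ∫ z, db (fun z => ((χ z : ℝ) : ℂ) - ((χ' z : ℝ) : ℂ)) z *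
      (starRingEnd ℂ (h z - z) * (deriv h z - 1)) =
      (∫ z, db (fun z => ((χ z : ℝ) : ℂ)) z * (starRingEnd ℂ (h z - z) * (deriv h z - 1))) -
      ∫ z, db (fun z => ((χ' z : ℝ) : ℂ)) z * (starRingEnd ℂ (h z - z) * (deriv h z - 1)) := by
    rw [← integral_sub i1 i2]
    refine integral_congr_ae (Eventually.of_forall fun z => ?_)
    simp only
    rw [db_sub (c1.differentiable (by simp) z) (c2.differentiable (by simp) z)]
    ring
  have e2 : ∫ z, (((χ z : ℝ) : ℂ) - ((χ' z : ℝ) : ℂ)) *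
      (starRingEnd ℂ (deriv h z - 1) * (deriv h z - 1)) =
      ((∫ z, (χ z - χ' z) * ‖deriv h z - 1‖ ^ 2 : ℝ) : ℂ) := by
    rw [← integral_complex_ofReal]
    refine integral_congr_ae (Eventually.of_forall fun z => ?_)
    simp only
    rw [mul_comm (starRingEnd ℂ _), Complex.mul_conj, Complex.normSq_eq_norm_sq]
    push_cast
    ring
  have e3 : ∫ z, (χ z - χ' z) * ‖deriv h z - 1‖ ^ 2 ≤ 0 := by
    refine integral_nonpos fun z => ?_
    refine mul_nonpos_of_nonpos_of_nonneg ?_ (by positivity)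
    by_cases hz : ‖z‖ ≤ ρ
    · rw [hone z hz]
      linarith [hχ.le z]
    · have : χ z = 0 := by
        refine image_eq_zero_of_notMem_tsupport fun h2 => hz ?_
        have := hS h2
        rw [mem_closedBall, dist_zero_right] at this
        linarith
      rw [this]
      linarith [hχ'.nn z]
  have e4 : ∫ z, db (fun z => ((χ z : ℝ) : ℂ)) z * (conj (d z) * deriv d z) =
      ∫ z, db (fun z => ((χ z : ℝ) : ℂ)) z * (starRingEnd ℂ (h z - z) * (deriv h z - 1)) := by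
    refine integral_congr_ae (Eventually.of_forall fun z => ?_)
    simp only
    by_cases hz : z ∈ {z : ℂ | R₀ < ‖z‖}
    · have h1 : DifferentiableAt ℂ d z := hd.differentiableAt (hΩ.mem_nhds hz)
      have h2 : deriv h z = deriv d z + 1 := (h1.hasDerivAt.add (hasDerivAt_id z)).deriv
      rw [h2]
      simp [hh_def]
    · rw [(db_eventually (n1 z hz)).self_of_nhds]
      simp
  rw [e1, e2] at key
  have e5 : (∫ z, db (fun z => ((χ z : ℝ) : ℂ)) z *
      (starRingEnd ℂ (h z - z) * (deriv h z - 1))).re =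
      (∫ z, db (fun z => ((χ' z : ℝ) : ℂ)) z * (starRingEnd ℂ (h z - z) * (deriv h z - 1))).re -
      2 * ∫ z, (χ z - χ' z) * ‖deriv h z - 1‖ ^ 2 := by
    have := congrArg Complex.re key
    rw [Complex.sub_re, Complex.neg_re] at this
    have h3 : (2 * ((∫ z, (χ z - χ' z) * ‖deriv h z - 1‖ ^ 2 : ℝ) : ℂ)).re =
        2 * ∫ z, (χ z - χ' z) * ‖deriv h z - 1‖ ^ 2 := by
      rw [Complex.re_mul_ofReal]
      simp
    rw [h3] at this
    linarith
  have e6 := (abs_le.1 ((Complex.abs_re_le_norm _).trans far)).1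
  rw [ar, e4, e5]
  nlinarith [e3, e6, hκ2]

end Vale.Agent.P116.Cl
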