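import Vale.Agent.P116.Cl.H858.E0a

/-!
# Block E0e: the inequality in the picture
-/

open Set Filter Topology Metric Bornology MeasureTheory
open scoped ComplexConjugate Real

namespace Vale.Agent.P116.Cl

open FK Ms H906 Ms.EN5aux

section

variable {n : ℕ} {c : Fin n → ℂ} {r : Fin n → ℝ}

/-- collars around the disks -/
lemma exists_collar' (hr : ∀ j, 0 < r j)
    (hdisj : ∀ i j, i ≠ j → Disjoint (closedBall (c i) (r i)) (closedBall (c j) (r j)))
    {δ : ℝ} (hδ : 0 < δ) {W : ℂ → ℂ} {p : Fin n → ℂ} {M : Fin n → ℝ}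
    (hb : ∀ j, ∀ ε > (0:ℝ), ∃ t > (0:ℝ), ∀ z : ℂ, z ∉ (⋃ j, closedBall (c j) (r j)) →
      infDist z (closedBall (c j) (r j)) < t → ‖W z - p j‖ ≤ M j + ε) {κ : ℝ} (hκ : 0 < κ) :
    ∃ t, 0 < t ∧ t ≤ κ ∧ t < δ ∧
      (∀ j k, k ≠ j → Disjoint (closedBall (c j) (r j + t)) (closedBall (c k) (r k + t))) ∧
      (∀ j z, r j < ‖z - c j‖ → ‖z - c j‖ < r j + t → ‖W z - p j‖ ≤ M j + κ) := by
  have e1 : ∀ᶠ t in 𝓝[>] (0:ℝ), t ∈ Ioo (0:ℝ) (min κ δ) := Ioo_mem_nhdsGT (by positivity)
  have e2 : ∀ᶠ t in 𝓝[>] (0:ℝ), ∀ j k, k ≠ j →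
      Disjoint (closedBall (c j) (r j + t)) (closedBall (c k) (r k + t)) := by
    rw [eventually_all]
    intro j
    rw [eventually_all]
    intro k
    by_cases hk : k = j
    · exact Eventually.of_forall fun t h => absurd hk h
    have hd := hdisj j k (Ne.symm hk)
    rw [disjoint_closedBall_closedBall_iff (hr j).le (hr k).le] at hd
    have hc : Continuous fun t : ℝ => (r j + t) + (r k + t) := by fun_prop
    have h0 : ∀ᶠ t in 𝓝 (0:ℝ), (r j + t) + (r k + t) < dist (c j) (c k) :=
      hc.continuousAt.eventually_lt continuousAt_const (by simpa using hd)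
    filter_upwards [e1, mem_nhdsWithin_of_mem_nhds h0] with t ht1 ht _
    rw [disjoint_closedBall_closedBall_iff (by linarith [hr j, ht1.1])
      (by linarith [hr k, ht1.1])]
    exact ht
  choose τ hτ hτ' using fun j => hb j κ hκ
  have e3 : ∀ᶠ t in 𝓝[>] (0:ℝ), ∀ j, t < τ j := by
    rw [eventually_all]
    intro j
    exact mem_nhdsWithin_of_mem_nhds (Iio_mem_nhds (hτ j))
  obtain ⟨t, ⟨ht0, ht1⟩, hsep, ht3⟩ := (e1.and (e2.and e3)).exists
  refine ⟨t, ht0, (ht1.trans_le (min_le_left _ _)).le, ht1.trans_le (min_le_right _ _), hsep, ?_⟩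
  intro j z hz1 hz2
  have hzc : z ∈ closedBall (c j) (r j + t) := by
    rw [mem_closedBall, dist_eq_norm]
    exact hz2.le
  have hzn : z ∉ ⋃ j, closedBall (c j) (r j) := by
    rw [mem_iUnion, not_exists]
    intro k hk
    by_cases hkj : k = j
    · subst hkj
      rw [mem_closedBall, dist_eq_norm] at hk
      linarith
    · exact (disjoint_left.1 (hsep j k hkj)) hzc (closedBall_subset_closedBall
        (by linarith) hk)
  refine hτ' j z hzn ?_
  rw [infDist_lt_iff_ball (hr j).le (hτ j), mem_ball, dist_eq_norm]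
  linarith [ht3 j]

/-- the inequality with an error -/
lemma e0e_aux (h0 : E0a) (hr : ∀ j, 0 < r j)
    (hdisj : ∀ i j, i ≠ j → Disjoint (closedBall (c i) (r i)) (closedBall (c j) (r j)))
    {χ : ℂ → ℝ} (hχ : ContDiff ℝ 1 (fun z => ((χ z : ℝ) : ℂ))) (hs : HasCompactSupport χ)
    (hχ0 : ∀ z, 0 ≤ χ z)
    {δ : ℝ} (hδ : 0 < δ) (h1 : ∀ j, ∀ z, infDist z (closedBall (c j) (r j)) < δ → χ z = 1)
    {U V ρ : ℂ → ℝ} (hU : Maj (⋃ j, closedBall (c j) (r j))ᶜ U ρ)
    (hV : Maj (⋃ j, closedBall (c j) (r j))ᶜ V ρ)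
    (hint : IntegrableOn (fun w => χ w * ρ w ^ 2) (⋃ j, closedBall (c j) (r j))ᶜ)
    {p : Fin n → ℂ} {M : Fin n → ℝ} (_hM : ∀ j, 0 ≤ M j)
    (hb : ∀ j, ∀ ε > (0:ℝ), ∃ t > (0:ℝ), ∀ z : ℂ, z ∉ (⋃ j, closedBall (c j) (r j)) →
      infDist z (closedBall (c j) (r j)) < t → ‖((U z : ℂ) + V z * Complex.I) - p j‖ ≤ M j + ε)
    {κ : ℝ} (hκ : 0 < κ) :
    -(∫ z, db (fun z => ((χ z : ℝ) : ℂ)) z * conj ((U z : ℂ) + V z * Complex.I)).re ≤
      (∫ z : ℂ, χ z) + enr (⋃ j, closedBall (c j) (r j))ᶜ χ ρ +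
        ∑ j, (2 * π * (r j + κ) * (M j + κ) - π * r j ^ 2) := by
  set Ω : Set ℂ := (⋃ j, closedBall (c j) (r j))ᶜ with hΩ
  have hO : IsOpen Ω := (isClosed_iUnion_of_finite fun _ => isClosed_closedBall).isOpen_compl
  set W : ℂ → ℂ := fun z => (U z : ℂ) + V z * Complex.I with hW
  obtain ⟨t, ht, htκ, htδ, hsep, hcol⟩ := exists_collar' hr hdisj hδ (W := W) hb hκ
  choose E a' b' hE using fun j => en2 (c j) (hr j) (show r j < r j + t by linarith)
  have hWc : ContinuousOn W Ω := by
    have hu := Complex.continuous_ofReal.comp_continuousOn hU.continuousOn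
    have hv := Complex.continuous_ofReal.comp_continuousOn hV.continuousOn
    exact hu.add (hv.mul continuousOn_const)
  -- E j vanishes off the collar
  have hE0 : ∀ j z, z ∉ ball (c j) (r j + t) → E j z = 0 := by
    intro j z hz
    refine (hE j).zero z fun h => hz (ball_subset_ball (hE j).h3.le h)
  have hE0' : ∀ j k, k ≠ j → ∀ z ∈ closedBall (c k) (r k + t), E j z = 0 := by
    intro j k hkj z hz
    refine hE0 j z fun h => ?_
    exact disjoint_left.1 (hsep j k hkj) (ball_subset_closedBall h) hz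
  have hχ1 : ∀ j, ∀ z ∈ ball (c j) (r j + t), χ z = 1 := by
    intro j z hz
    refine h1 j z ?_
    rw [infDist_lt_iff_ball (hr j).le hδ]
    exact ball_subset_ball (by linarith) hz
  set ψ : ℂ → ℝ := fun z => χ z - ∑ j, E j z with hψ
  have hψ1 : ∀ j, ∀ z ∈ ball (c j) (r j + t), ψ z = 1 - E j z := by
    intro j z hz
    simp only [hψ]
    rw [hχ1 j z hz, Finset.sum_eq_single j]
    · intro k _ hkj
      exact hE0' k j (Ne.symm hkj) z (ball_subset_closedBall hz)
    · intro h
      exact absurd (Finset.mem_univ j) h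
  have hψ2 : ∀ z, (∀ j, z ∉ ball (c j) (r j + t)) → ψ z = χ z := by
    intro z hz
    simp only [hψ]
    rw [Finset.sum_eq_zero fun j _ => hE0 j z (hz j), sub_zero]
  have hψ0 : ∀ z, 0 ≤ ψ z := by
    intro z
    by_cases hz : ∃ j, z ∈ ball (c j) (r j + t)
    · obtain ⟨j, hj⟩ := hz
      rw [hψ1 j z hj]
      linarith [(hE j).le z]
    · push Not at hz
      rw [hψ2 z hz]
      exact hχ0 z
  have hψle : ∀ z, ψ z ≤ χ z := by
    intro z
    simp only [hψ]
    have : 0 ≤ ∑ j, E j z := Finset.sum_nonneg fun j _ => (hE j).nn z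
    linarith
  have hEcd : ∀ j, ContDiff ℝ 1 (fun z => ((E j z : ℝ) : ℂ)) := fun j => Cut.cd (hE j)
  have hψe : (fun z => ((ψ z : ℝ) : ℂ)) = fun z => ((χ z : ℝ) : ℂ) - ∑ j, ((E j z : ℝ) : ℂ) := by
    ext z
    simp only [hψ]
    push_cast
    rfl
  have hsum : ContDiff ℝ 1 (fun z => ∑ j, ((E j z : ℝ) : ℂ)) :=
    ContDiff.sum fun j _ => hEcd j
  have hψcd : ContDiff ℝ 1 (fun z => ((ψ z : ℝ) : ℂ)) := by
    rw [hψe]
    exact hχ.sub hsum
  have hEs : ∀ j, HasCompactSupport (E j) := fun j => Cut.supp' (hE j)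
  have hψs : HasCompactSupport ψ := by
    have h2 : HasCompactSupport (fun z => ∑ j, E j z) := by
      classical
      have : ∀ s : Finset (Fin n), HasCompactSupport (fun z => ∑ j ∈ s, E j z) := by
        intro s
        induction s using Finset.induction_on with
        | empty =>
          simp only [Finset.sum_empty]
          exact HasCompactSupport.zero
        | insert j s hj ih =>
          simp only [Finset.sum_insert hj]
          exact (hEs j).add ih
      exact this _
    exact hs.sub h2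
  have hψnear : ∀ z, z ∉ Ω → ∀ᶠ y in 𝓝 z, ψ y = 0 := by
    intro z hz
    rw [hΩ, mem_compl_iff, not_not] at hz
    obtain ⟨j, hj⟩ := mem_iUnion.1 hz
    have h2 : ball (c j) (a' j) ∈ 𝓝 z := isOpen_ball.mem_nhds
      (closedBall_subset_ball (hE j).h1 hj)
    filter_upwards [h2] with y hy
    rw [hψ1 j y (ball_subset_ball ((hE j).h2.trans (hE j).h3).le hy),
      (hE j).one y (ball_subset_closedBall hy), sub_self]
  have hψsupp : tsupport ψ ⊆ Ω := by
    intro z hz
    by_contra hzΩ
    exact notMem_tsupport_iff_eventuallyEq.2 (hψnear z hzΩ) hz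
  have key := h0 hO hU hV hψcd hψs hψsupp hψ0
  -- local constancy of the cutoffs near the disks
  have hEnear : ∀ j z, z ∉ Ω → ∀ᶠ y in 𝓝 z, db (fun z => ((E j z : ℝ) : ℂ)) y = 0 := by
    intro j z hz
    rw [hΩ, mem_compl_iff, not_not] at hz
    obtain ⟨k, hk⟩ := mem_iUnion.1 hz
    by_cases hkj : k = j
    · subst hkj
      refine db_eventually (a := 1) ?_
      have h2 : ball (c k) (a' k) ∈ 𝓝 z := isOpen_ball.mem_nhds
        (closedBall_subset_ball (hE k).h1 hk)
      filter_upwards [h2] with y hy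
      rw [(hE k).one y (ball_subset_closedBall hy)]
      simp
    · refine db_eventually (a := 0) ?_
      have h2 : ball (c k) (r k + t) ∈ 𝓝 z := isOpen_ball.mem_nhds
        (closedBall_subset_ball (by linarith) hk)
      filter_upwards [h2] with y hy
      rw [hE0' j k hkj y (ball_subset_closedBall hy)]
      simp
  have hχnear : ∀ z, z ∉ Ω → ∀ᶠ y in 𝓝 z, db (fun z => ((χ z : ℝ) : ℂ)) y = 0 := by
    intro z hz
    rw [hΩ, mem_compl_iff, not_not] at hz
    obtain ⟨k, hk⟩ := mem_iUnion.1 hz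
    refine db_eventually (a := 1) ?_
    have h2 : ball (c k) (r k + t) ∈ 𝓝 z := isOpen_ball.mem_nhds
      (closedBall_subset_ball (by linarith) hk)
    filter_upwards [h2] with y hy
    rw [hχ1 k y hy]
    simp
  have hWcc : ContinuousOn (fun z => conj (W z)) Ω := Complex.continuous_conj.comp_continuousOn hWc
  have hsC : HasCompactSupport (fun z => ((χ z : ℝ) : ℂ)) :=
    hs.comp_left (g := fun x : ℝ => (x : ℂ)) (by simp)
  have iχ : Integrable (fun z => db (fun z => ((χ z : ℝ) : ℂ)) z * conj (W z)) :=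
    int_ext hO (db_continuous hχ) (db_supp hsC) hWcc hχnear
  have iE : ∀ j, Integrable (fun z => db (fun z => ((E j z : ℝ) : ℂ)) z * conj (W z)) := fun j =>
    int_ext hO (db_continuous (hEcd j)) (db_supp (Cut.supp (hE j))) hWcc (hEnear j)
  have iE1 : ∀ j, Integrable (fun z => db (fun z => ((E j z : ℝ) : ℂ)) z) := fun j =>
    (db_continuous (hEcd j)).integrable_of_hasCompactSupport (db_supp (Cut.supp (hE j)))
  have edb : ∀ z, db (fun z => ((ψ z : ℝ) : ℂ)) z =
      db (fun z => ((χ z : ℝ) : ℂ)) z - ∑ j, db (fun z => ((E j z : ℝ) : ℂ)) z := by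
    intro z
    rw [hψe, db_sub (hχ.differentiable (by simp) z) (hsum.differentiable (by simp) z),
      db_sum fun j _ => (hEcd j).differentiable (by simp) z]
  have eint : ∫ z, db (fun z => ((ψ z : ℝ) : ℂ)) z * conj (W z) =
      (∫ z, db (fun z => ((χ z : ℝ) : ℂ)) z * conj (W z)) -
        ∑ j, ∫ z, db (fun z => ((E j z : ℝ) : ℂ)) z * conj (W z) := by
    rw [← integral_finsetSum _ fun j _ => iE j, ← integral_sub iχ (integrable_finsetSum _ fun j _ => iE j)]
    refine integral_congr_ae (Eventually.of_forall fun z => ?_)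
    simp only [edb z, sub_mul, Finset.sum_mul]
  -- the terms of the disks
  have hterm : ∀ j, -(∫ z, db (fun z => ((E j z : ℝ) : ℂ)) z * conj (W z)).re ≤
      2 * π * (r j + κ) * (M j + κ) := by
    intro j
    have e0 : ∫ z, db (fun z => ((E j z : ℝ) : ℂ)) z * conj (W z) =
        ∫ z, db (fun z => ((E j z : ℝ) : ℂ)) z * conj (W z - p j) := by
      have h2 : ∫ z, db (fun z => ((E j z : ℝ) : ℂ)) z * conj (W z - p j) =
          (∫ z, db (fun z => ((E j z : ℝ) : ℂ)) z * conj (W z)) -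
            ∫ z, db (fun z => ((E j z : ℝ) : ℂ)) z * conj (p j) := by
        rw [← integral_sub (iE j) ((iE1 j).mul_const _)]
        refine integral_congr_ae (Eventually.of_forall fun z => ?_)
        simp only [map_sub]
        ring
      rw [h2, integral_mul_const, en1 (hEcd j) (Cut.supp (hE j)), zero_mul, sub_zero]
    have hb2 : ∀ z, ‖db (fun z => ((E j z : ℝ) : ℂ)) z * conj (W z - p j)‖ ≤
        ‖db (fun z => ((E j z : ℝ) : ℂ)) z‖ * (M j + κ) := by
      intro z
      rw [norm_mul, RCLike.norm_conj]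
      by_cases hz : r j < ‖z - c j‖ ∧ ‖z - c j‖ < r j + t
      · exact mul_le_mul_of_nonneg_left (hcol j z hz.1 hz.2) (norm_nonneg _)
      · have hz0 : db (fun z => ((E j z : ℝ) : ℂ)) z = 0 := by
          rw [not_and_or, not_lt, not_lt] at hz
          rcases hz with hz | hz
          · refine (hEnear j z ?_).self_of_nhds
            rw [hΩ, mem_compl_iff, not_not]
            exact mem_iUnion.2 ⟨j, by rw [mem_closedBall, dist_eq_norm]; exact hz⟩
          · refine (db_eventually (a := 0) ?_).self_of_nhds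
            have h2 : (closedBall (c j) (b' j))ᶜ ∈ 𝓝 z := by
              refine isClosed_closedBall.isOpen_compl.mem_nhds fun h => ?_
              rw [mem_closedBall, dist_eq_norm] at h
              linarith [(hE j).h3]
            filter_upwards [h2] with y hy
            rw [(hE j).zero y fun h => hy (ball_subset_closedBall h)]
            simp
        rw [hz0]
        simp
    have hI : Integrable (fun z => ‖db (fun z => ((E j z : ℝ) : ℂ)) z‖ * (M j + κ)) :=
      ((iE1 j).norm).mul_const _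
    have h3 := norm_integral_le_of_norm_le hI (Eventually.of_forall hb2)
    rw [integral_mul_const, ← e0] at h3
    have hMκ : 0 ≤ M j + κ := by linarith [_hM j]
    have h4 : (∫ z, ‖db (fun z => ((E j z : ℝ) : ℂ)) z‖) * (M j + κ) ≤
        2 * π * (r j + κ) * (M j + κ) := by
      refine mul_le_mul_of_nonneg_right ((hE j).int.trans ?_) hMκ
      have : r j + t ≤ r j + κ := by linarith
      exact mul_le_mul_of_nonneg_left this (by positivity)
    have h5 := Complex.abs_re_le_norm (∫ z, db (fun z => ((E j z : ℝ) : ℂ)) z * conj (W z))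
    have h6 := neg_abs_le (∫ z, db (fun z => ((E j z : ℝ) : ℂ)) z * conj (W z)).re
    linarith
  -- the main term
  have iE' : ∀ j, Integrable (E j) := fun j => by
    have h2 : Continuous (E j) := Complex.continuous_re.comp (hEcd j).continuous
    exact h2.integrable_of_hasCompactSupport (hEs j)
  have iχ' : Integrable χ := by
    have h2 : Continuous χ := Complex.continuous_re.comp hχ.continuous
    exact h2.integrable_of_hasCompactSupport hs
  have iψ : Integrable ψ := iχ'.sub (integrable_finsetSum _ fun j _ => iE' j)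
  have hψint : ∫ z, ψ z ≤ (∫ z, χ z) - ∑ j, π * r j ^ 2 := by
    have h2 : ∫ z, ψ z = (∫ z, χ z) - ∑ j, ∫ z, E j z := by
      rw [← integral_finsetSum _ fun j _ => iE' j]
      exact integral_sub iχ' (integrable_finsetSum _ fun j _ => iE' j)
    rw [h2]
    refine sub_le_sub_left (Finset.sum_le_sum fun j _ => ?_) _
    have h3 : ∫ z in closedBall (c j) (r j), E j z ≤ ∫ z, E j z :=
      setIntegral_le_integral (iE' j) (Eventually.of_forall fun z => (hE j).nn z)
    have h4 : ∫ z in closedBall (c j) (r j), E j z = π * r j ^ 2 := by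
      rw [setIntegral_congr_fun measurableSet_closedBall (g := fun _ => (1:ℝ))
        (fun z hz => (hE j).one z (closedBall_subset_closedBall (hE j).h1.le hz))]
      rw [setIntegral_const, smul_eq_mul, mul_one, Measure.real, Complex.volume_closedBall]
      rw [ENNReal.toReal_mul, ENNReal.toReal_pow, ENNReal.toReal_ofReal (hr j).le]
      simp [mul_comm]
    linarith
  have hψΩ : ∀ z, z ∉ Ω → ψ z = 0 := fun z hz => (hψnear z hz).self_of_nhds
  have hmain : 2 * ∫ z, ψ z * ρ z ≤ (∫ z, ψ z) + enr Ω χ ρ := by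
    have hmeas : MeasurableSet Ω := hO.measurableSet
    have e1 : ∫ z, ψ z * ρ z = ∫ z in Ω, ψ z * ρ z :=
      (setIntegral_eq_integral_of_forall_compl_eq_zero fun z hz => by
        rw [hψΩ z hz, zero_mul]).symm
    have e2 : ∫ z, ψ z = ∫ z in Ω, ψ z :=
      (setIntegral_eq_integral_of_forall_compl_eq_zero fun z hz => hψΩ z hz).symm
    rw [e1, e2, enr, ← integral_const_mul, ← integral_add iψ.integrableOn hint]
    refine integral_mono_of_nonneg ?_ (iψ.integrableOn.add hint) ?_
    · filter_upwards [ae_restrict_mem hmeas] with z hz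
      have := hU.nn z hz
      have := hψ0 z
      simp only [Pi.zero_apply]
      positivity
    · filter_upwards [ae_restrict_mem hmeas] with z hz
      have h3 := hψ0 z
      have h4 := hψle z
      have h5 : ψ z * ρ z ^ 2 ≤ χ z * ρ z ^ 2 := mul_le_mul_of_nonneg_right h4 (sq_nonneg _)
      have h6 : 0 ≤ ψ z * (1 - ρ z) ^ 2 := mul_nonneg h3 (sq_nonneg _)
      nlinarith
  have hfin : -(∫ z, db (fun z => ((χ z : ℝ) : ℂ)) z * conj (W z)).re =
      -(∫ z, db (fun z => ((ψ z : ℝ) : ℂ)) z * conj (W z)).re +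
        ∑ j, -(∫ z, db (fun z => ((E j z : ℝ) : ℂ)) z * conj (W z)).re := by
    rw [eint, Complex.sub_re, Complex.re_sum, Finset.sum_neg_distrib]
    ring
  have hsum2 : ∑ j, -(∫ z, db (fun z => ((E j z : ℝ) : ℂ)) z * conj (W z)).re ≤
      ∑ j, 2 * π * (r j + κ) * (M j + κ) := Finset.sum_le_sum fun j _ => hterm j
  change -(∫ z, db (fun z => ((χ z : ℝ) : ℂ)) z * conj (W z)).re ≤ _
  rw [hfin, Finset.sum_sub_distrib]
  change -(∫ z, db (fun z => ((ψ z : ℝ) : ℂ)) z * conj (W z)).re ≤ _ at key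
  linarith

end

/-- **E0e** -/
theorem e0e_of (h0 : E0a) : E0e := by
  intro n c r hr hdisj χ hχ hs hχ0 δ hδ h1 U V ρ hU hV hint p M hM hb
  have h2 : Tendsto (fun κ : ℝ => (∫ z : ℂ, χ z) + enr (⋃ j, closedBall (c j) (r j))ᶜ χ ρ +
        ∑ j, (2 * π * (r j + κ) * (M j + κ) - π * r j ^ 2)) (𝓝[>] 0)
      (𝓝 ((∫ z : ℂ, χ z) + enr (⋃ j, closedBall (c j) (r j))ᶜ χ ρ +
        ∑ j, (2 * π * (r j + 0) * (M j + 0) - π * r j ^ 2))) := by
    have : Continuous (fun κ : ℝ => (∫ z : ℂ, χ z) + enr (⋃ j, closedBall (c j) (r j))ᶜ χ ρ +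
        ∑ j, (2 * π * (r j + κ) * (M j + κ) - π * r j ^ 2)) := by fun_prop
    exact (this.tendsto 0).mono_left nhdsWithin_le_nhds
  have h3 := ge_of_tendsto h2 (by
    filter_upwards [self_mem_nhdsWithin] with κ hκ
    exact e0e_aux h0 hr hdisj hχ hs hχ0 hδ h1 hU hV hint hM hb hκ)
  refine h3.trans ?_
  rw [Finset.mul_sum]
  gcongr with j _
  have : 0 ≤ π * (M j - r j) ^ 2 := by positivity
  nlinarith

end Vale.Agent.P116.Cl
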