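import Vale.Agent.P116.Cl.E0Asm
import Vale.Agent.P116.Cl.E0b
import Vale.Agent.P116.Cl.E0c
import Vale.Agent.P116.Cl.E0d
import Vale.Agent.P116.Cl.E0e
import Vale.Agent.P116.Cl.CfEx
import Vale.Agent.P116.Cl.H858.E0a

/-!
# Block E0: the circumradius principle, closed
-/

namespace Vale.Agent.P116.Cl

/-- **(E0)** the circumradius principle -/
theorem e0 : E0 := e0_of e0b1 e0b2 e0b3 e0c e0d (e0e_of e0a)

end Vale.Agent.P116.Cl
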