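import Vale.Agent.P116.Cl.E0b

/-!
# Block E0: assembly
-/

open Set Filter Topology Metric Bornology MeasureTheory
open scoped ComplexConjugate Real

namespace Vale.Agent.P116.Cl

open FK Ms H906 Ms.EN5aux

section

variable {n : ℕ} {c : Fin n → ℂ} {r : Fin n → ℝ} {L : Fin n → Set ℂ} {h : ℂ → ℂ} {B : ℝ}

lemma isOpen_Om (c : Fin n → ℂ) (r : Fin n → ℝ) : IsOpen (⋃ j, closedBall (c j) (r j))ᶜ :=
  (isClosed_iUnion_of_finite fun _ => isClosed_closedBall).isOpen_compl

lemma isOpen_G (hP : EP c r L h B) : IsOpen (⋃ j, L j)ᶜ :=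
  (isCompact_iUnion hP.Lc).isClosed.isOpen_compl

/-- the inverse map tends to infinity -/
lemma hi_inf (hP : EP c r L h B) : Tendsto (hi c r h) (cobounded ℂ) (cobounded ℂ) := by
  rw [tendsto_iff_ultrafilter]
  intro 𝒱 hV1
  by_contra hcon
  have h0 : ∃ R : ℝ, ∀ᶠ z in (𝒱 : Filter ℂ), ‖hi c r h z‖ ≤ R := by
    by_contra hno
    push Not at hno
    apply hcon
    rw [← tendsto_norm_atTop_iff_cobounded, Filter.tendsto_atTop]
    intro R
    filter_upwards [hno R] with z hz using hz.le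
  obtain ⟨R, hR⟩ := h0
  have hLc : IsCompact (⋃ i, L i) := isCompact_iUnion hP.Lc
  have hΩ' : (⋃ i, L i)ᶜ ∈ (𝒱 : Filter ℂ) := hV1 (Bornology.IsBounded.compl hLc.isBounded)
  set g := hi c r h with hg
  have hU1 : (⋃ j, closedBall (c j) (r j))ᶜ ∈ ((𝒱.map g : Ultrafilter ℂ) : Filter ℂ) := by
    rw [Ultrafilter.coe_map, Filter.mem_map]
    filter_upwards [hΩ'] with w hw using (hi_mem hP hw).1
  have hU2 : closedBall (0:ℂ) R ∈ ((𝒱.map g : Ultrafilter ℂ) : Filter ℂ) := by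
    rw [Ultrafilter.coe_map, Filter.mem_map]
    filter_upwards [hR] with w hw
    simpa using hw
  obtain ⟨z, -, hz⟩ := IsCompact.ultrafilter_le_nhds (isCompact_closedBall (0:ℂ) R) (𝒱.map g)
    (le_principal_iff.2 hU2)
  have hcob : Tendsto (fun w => ‖w‖) (𝒱 : Filter ℂ) atTop :=
    tendsto_norm_cobounded_atTop.mono_left hV1
  have hcob2 : Tendsto (fun u => ‖h u‖) ((𝒱.map g : Ultrafilter ℂ) : Filter ℂ) atTop := by
    rw [Ultrafilter.coe_map, Filter.tendsto_map'_iff]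
    refine Tendsto.congr' ?_ hcob
    filter_upwards [hΩ'] with w hw
    show ‖w‖ = ‖h (g w)‖
    rw [(hi_mem hP hw).2]
  by_cases hzO : z ∈ (⋃ j, closedBall (c j) (r j))
  · obtain ⟨k, hk⟩ := mem_iUnion.1 hzO
    obtain ⟨R', hR'⟩ := (hP.Lc k).isBounded.subset_closedBall 0
    have h1 := hP.near hU1 hz hk one_pos
    obtain ⟨u, hu1, hu2⟩ := (h1.and (hcob2.eventually_gt_atTop (R' + 1))).exists
    obtain ⟨y, hy, hy2⟩ := (infDist_lt_iff (hP.Lne k)).1 hu1
    have h3 := hR' hy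
    rw [mem_closedBall, dist_zero_right] at h3
    rw [dist_eq_norm] at hy2
    have h4 : ‖h u‖ ≤ ‖h u - y‖ + ‖y‖ := by
      have := norm_add_le (h u - y) y
      rwa [sub_add_cancel] at this
    linarith
  · have h1 : Tendsto (fun u => ‖h u‖) ((𝒱.map g : Ultrafilter ℂ) : Filter ℂ) (𝓝 ‖h z‖) :=
      (((hP.diff.differentiableAt ((isOpen_Om c r).mem_nhds hzO)).continuousAt.norm.tendsto)).mono_left hz
    exact not_tendsto_atTop_of_tendsto_nhds h1 hcob2

lemma hi_norm (hP : EP c r L h B) : Tendsto (fun z => hi c r h z - z) (cobounded ℂ) (𝓝 0) := by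
  have h1 := (hP.norm.comp (hi_inf hP)).neg
  rw [neg_zero] at h1
  refine h1.congr' ?_
  filter_upwards [(isCompact_iUnion hP.Lc).isBounded.compl] with z hz
  simp only [Function.comp]
  rw [(hi_mem hP hz).2]
  ring

end

/-- the derivative of a far cutoff vanishes near points which are not far -/
lemma Cf.db_near {R₀ : ℝ} {χ : ℂ → ℝ} (hχ : Cf R₀ χ) {z : ℂ} (hz : ¬ R₀ < ‖z‖) :
    ∀ᶠ y in 𝓝 z, db (fun z => ((χ z : ℝ) : ℂ)) y = 0 := by
  refine db_eventually (a := 1) ?_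
  have : ball (0:ℂ) (R₀ + 1) ∈ 𝓝 z := isOpen_ball.mem_nhds (by
    rw [mem_ball, dist_zero_right]
    linarith)
  filter_upwards [this] with y hy
  rw [hχ.one y (ball_subset_closedBall hy)]
  simp

lemma Cf.cd {R₀ : ℝ} {χ : ℂ → ℝ} (hχ : Cf R₀ χ) :
    ContDiff ℝ 1 (fun z => ((χ z : ℝ) : ℂ)) := hχ.smooth.of_le (by norm_num)

lemma Cf.suppC {R₀ : ℝ} {χ : ℂ → ℝ} (hχ : Cf R₀ χ) :
    HasCompactSupport (fun z => ((χ z : ℝ) : ℂ)) :=
  hχ.supp.comp_left (g := fun x : ℝ => (x : ℂ)) (by simp)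

lemma isOpen_far (R₀ : ℝ) : IsOpen {z : ℂ | R₀ < ‖z‖} := isOpen_lt continuous_const continuous_norm

/-- integrability of the mixed area densities -/
lemma ar_int {R₀ : ℝ} {χ : ℂ → ℝ} (hχ : Cf R₀ χ) {a b : ℂ → ℂ}
    (ha : DifferentiableOn ℂ a {z | R₀ < ‖z‖}) (hb : ContinuousOn b {z | R₀ < ‖z‖}) :
    Integrable (fun z => db (fun z => ((χ z : ℝ) : ℂ)) z * (conj (b z) * deriv a z)) := by
  refine int_ext (isOpen_far R₀) (db_continuous hχ.cd) (db_supp hχ.suppC) ?_
    fun z hz => hχ.db_near hz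
  refine (Complex.continuous_conj.comp_continuousOn hb).mul ?_
  intro z hz
  exact ((ha.analyticAt ((isOpen_far R₀).mem_nhds hz)).deriv).continuousAt.continuousWithinAt

/-- the mixed area only depends on the far values of the second function -/
lemma ar_congr {R₀ : ℝ} {χ : ℂ → ℝ} (hχ : Cf R₀ χ) {a b b' : ℂ → ℂ}
    (hb : ∀ z, R₀ < ‖z‖ → b z = b' z) : ar χ a b = ar χ a b' := by
  unfold ar
  congr 3
  ext z
  by_cases hz : R₀ < ‖z‖
  · rw [hb z hz]
  · rw [(hχ.db_near hz).self_of_nhds]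
    simp

lemma ar_sub_right {R₀ : ℝ} {χ : ℂ → ℝ} (hχ : Cf R₀ χ) {a b b' : ℂ → ℂ}
    (ha : DifferentiableOn ℂ a {z | R₀ < ‖z‖}) (hb : ContinuousOn b {z | R₀ < ‖z‖})
    (hb' : ContinuousOn b' {z | R₀ < ‖z‖}) :
    ar χ a (fun z => b z - b' z) = ar χ a b - ar χ a b' := by
  have e : ∫ z, db (fun z => ((χ z : ℝ) : ℂ)) z * (conj (b z - b' z) * deriv a z) =
      (∫ z, db (fun z => ((χ z : ℝ) : ℂ)) z * (conj (b z) * deriv a z)) -
        ∫ z, db (fun z => ((χ z : ℝ) : ℂ)) z * (conj (b' z) * deriv a z) := by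
    rw [← integral_sub (ar_int hχ ha hb) (ar_int hχ ha hb')]
    refine integral_congr_ae (Eventually.of_forall fun z => ?_)
    simp only [map_sub]
    ring
  unfold ar
  rw [e, Complex.sub_re]
  ring

lemma ar_sub_left {R₀ : ℝ} {χ : ℂ → ℝ} (hχ : Cf R₀ χ) {a a' b : ℂ → ℂ}
    (ha : DifferentiableOn ℂ a {z | R₀ < ‖z‖}) (ha' : DifferentiableOn ℂ a' {z | R₀ < ‖z‖})
    (hb : ContinuousOn b {z | R₀ < ‖z‖}) :
    ar χ (fun z => a z - a' z) b = ar χ a b - ar χ a' b := by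
  have e : ∫ z, db (fun z => ((χ z : ℝ) : ℂ)) z * (conj (b z) * deriv (fun z => a z - a' z) z) =
      (∫ z, db (fun z => ((χ z : ℝ) : ℂ)) z * (conj (b z) * deriv a z)) -
        ∫ z, db (fun z => ((χ z : ℝ) : ℂ)) z * (conj (b z) * deriv a' z) := by
    rw [← integral_sub (ar_int hχ ha hb) (ar_int hχ ha' hb)]
    refine integral_congr_ae (Eventually.of_forall fun z => ?_)
    by_cases hz : R₀ < ‖z‖
    · have h1 : deriv (fun z => a z - a' z) z = deriv a z - deriv a' z :=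
        deriv_fun_sub (ha.differentiableAt ((isOpen_far R₀).mem_nhds hz))
          (ha'.differentiableAt ((isOpen_far R₀).mem_nhds hz))
      simp only [h1]
      ring
    · simp only [(hχ.db_near hz).self_of_nhds]
      simp
  unfold ar
  rw [e, Complex.sub_re]
  ring

/-- **E0**, assembly -/
theorem e0_of (hb1 : E0b1) (hb2 : E0b2) (hb3 : E0b3) (hc : E0c) (hd : E0d) (he : E0e) : E0 := by
  intro n c r L h B hP R₀ hR₀ hL U V ρ hU hV g hg hgn hgW p M hM hbd χ hχ hint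
  set Ω : Set ℂ := (⋃ j, closedBall (c j) (r j))ᶜ with hΩdef
  set G : Set ℂ := (⋃ j, L j)ᶜ with hGdef
  set f : ℂ → ℂ := hi c r h with hf
  set W : ℂ → ℂ := fun z => (U z : ℂ) + V z * Complex.I with hW
  set χ' : ℂ → ℝ := pb c r h χ with hχ'
  obtain ⟨k1, k2, δ, hδ, k3⟩ := hb1 hP hR₀ hL hχ
  obtain ⟨m1, m2, m3⟩ := hb3 hP χ ρ
  have hχ'Ω : ∀ w ∈ Ω, χ' w = χ (h w) := by
    intro w hw
    simp only [hχ', pb]
    rw [if_neg hw]
  have hχ'0 : ∀ w, 0 ≤ χ' w := by
    intro w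
    simp only [hχ', pb]
    split_ifs
    · exact zero_le_one
    · exact hχ.nn _
  have hmG : ∀ w ∈ Ω, h w ∈ G := by
    intro w hw
    rw [hGdef, ← hP.image]
    exact mem_image_of_mem _ hw
  -- the inequality in the picture
  have hi1 : IntegrableOn (fun w => χ' w * (ρ (h w) * ‖deriv h w‖) ^ 2) Ω := by
    refine (m2 hint).congr_fun (fun w hw => ?_) (isOpen_Om c r).measurableSet
    simp only [hχ'Ω w hw]
  have hE := he hP.rpos hP.disj (χ := χ') (k1.of_le (by norm_num)) k2 hχ'0 hδ k3 (m3 U hU)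
    (m3 V hV) hi1 hM (p := p) (by
      intro j ε hε
      obtain ⟨t, ht, ht'⟩ := hbd j ε hε
      obtain ⟨t', ht1, ht2⟩ := hP.bdry j t ht
      refine ⟨t', ht1, fun z hz hz' => ?_⟩
      exact ht' (h z) (hmG z hz) (ht2 z hz hz'))
  have hen : enr Ω χ' (fun w => ρ (h w) * ‖deriv h w‖) = enr G χ ρ := by
    rw [m1]
    unfold enr
    refine setIntegral_congr_fun (isOpen_Om c r).measurableSet fun w hw => ?_
    simp only [hχ'Ω w hw]
  rw [hen] at hE
  -- the line terms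
  have e1 : ar χ f W = -(1 / 2) * (∫ w, db (fun z => ((χ' z : ℝ) : ℂ)) w * conj (W (h w))).re := by
    unfold ar
    rw [hf, hb2 hP hR₀ hL hχ W]
  have e2 : ar χ f f = ∫ w, χ' w := by
    have h1 : ∫ w, db (fun z => ((χ' z : ℝ) : ℂ)) w * conj (f (h w)) =
        ∫ w, db (fun z => ((χ' z : ℝ) : ℂ)) w * conj w := by
      refine integral_congr_ae (Eventually.of_forall fun w => ?_)
      by_cases hw : w ∈ Ω
      · simp only [hf, hi_h hP hw]
      · rw [hΩdef, mem_compl_iff, not_not] at hw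
        obtain ⟨j, hj⟩ := mem_iUnion.1 hw
        have h2 : ∀ᶠ y in 𝓝 w, ((χ' y : ℝ) : ℂ) = 1 := by
          have h3 : infDist w (closedBall (c j) (r j)) < δ := by
            rw [infDist_zero_of_mem hj]; exact hδ
          filter_upwards [(continuous_infDist_pt _).continuousAt.eventually_lt
            continuousAt_const h3] with y hy
          rw [hχ', k3 j y hy]
          simp
        have h3 := (db_eventually h2).self_of_nhds
        simp only [h3, zero_mul]
    have h2 : ∫ w, db (fun z => ((χ' z : ℝ) : ℂ)) w * conj w = -2 * ∫ w, ((χ' w : ℝ) : ℂ) :=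
      integral_db_conj (k1.of_le (by norm_num))
        (k2.comp_left (g := fun x : ℝ => (x : ℂ)) (by simp))
    have h3 : (-2 * ∫ w, ((χ' w : ℝ) : ℂ)).re = -2 * ∫ w, χ' w := by
      rw [integral_complex_ofReal]
      simp
    unfold ar
    rw [hf, hb2 hP hR₀ hL hχ (hi c r h), ← hf, h1, h2, h3]
    ring
  have e3 : 2 * ar χ f W ≤ ar χ f f + enr G χ ρ + π * (∑ j, M j ^ 2) := by
    rw [e1, e2]
    have : (2:ℝ) * (-(1 / 2) * (∫ w, db (fun z => ((χ' z : ℝ) : ℂ)) w * conj (W (h w))).re) =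
        -(∫ w, db (fun z => ((χ' z : ℝ) : ℂ)) w * conj (W (h w))).re := by ring
    rw [this]
    exact hE
  -- the far part
  have hVG : {z : ℂ | R₀ < ‖z‖} ⊆ G := by
    intro z hz hz'
    obtain ⟨j, hj⟩ := mem_iUnion.1 hz'
    have := hL j hj
    rw [mem_closedBall, dist_zero_right] at this
    exact absurd hz (not_lt.2 this)
  have hfV : DifferentiableOn ℂ f {z | R₀ < ‖z‖} := (hi_diff hP).mono hVG
  have hd1 : DifferentiableOn ℂ (fun z => g z - f z) {z | R₀ < ‖z‖} := hg.sub hfV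
  have hd2 : Tendsto (fun z => g z - f z) (cobounded ℂ) (𝓝 0) := by
    have := hgn.sub (hi_norm hP)
    rw [sub_zero] at this
    refine this.congr fun z => ?_
    ring
  have d1 := hd hR₀ hd1 hd2 hχ
  have d2 : ar χ f (fun z => g z - f z) = ar χ (fun z => g z - f z) f := by
    refine hc (isOpen_far R₀) hfV hd1 hχ.smooth hχ.supp fun z hz => ⟨1, ?_⟩
    have : ball (0:ℂ) (R₀ + 1) ∈ 𝓝 z := isOpen_ball.mem_nhds (by
      rw [mem_ofPred_eq, not_lt] at hz
      rw [mem_ball, dist_zero_right]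
      linarith)
    filter_upwards [this] with y hy
    exact hχ.one y (ball_subset_closedBall hy)
  have d3 : ar χ f (fun z => g z - f z) = ar χ f g - ar χ f f :=
    ar_sub_right hχ hfV hg.continuousOn hfV.continuousOn
  have d4 : ar χ (fun z => g z - f z) f = ar χ g f - ar χ f f :=
    ar_sub_left hχ hg hfV hfV.continuousOn
  have d5 : ar χ (fun z => g z - f z) (fun z => g z - f z) =
      ar χ (fun z => g z - f z) g - ar χ (fun z => g z - f z) f :=
    ar_sub_right hχ hd1 hg.continuousOn hfV.continuousOn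
  have d6 : ar χ (fun z => g z - f z) g = ar χ g g - ar χ f g :=
    ar_sub_left hχ hg hfV hg.continuousOn
  have d7 : ar χ f g = ar χ f W := ar_congr hχ hgW
  linarith

end Vale.Agent.P116.Cl
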