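import Vale.Agent.P116.Ms.Energy
import Vale.Agent.P116.H906.NU

/-!
# Block E0: the circumradius principle (specifications)

The Koebe map of a finite structure minimises a convex functional; here the consequence used in the
end game: the smoothed area of a test map is at most its energy plus `π` times the sum of the
squares of the circumradii of the values at the holes.
-/

open Set Filter Topology Metric Bornology MeasureTheory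
open scoped ComplexConjugate Real

namespace Vale.Agent.P116.Cl

open FK Ms H906

/-- `ρ` is continuous on `G` and the local Lipschitz constant of `u` at `a ∈ G` is at most `ρ a` -/
structure Maj (G : Set ℂ) (u ρ : ℂ → ℝ) : Prop where
  cont : ContinuousOn ρ G
  nn : ∀ z ∈ G, 0 ≤ ρ z
  lip : ∀ a ∈ G, ∀ ε > 0, ∃ δ > 0, ∀ x ∈ ball a δ, ∀ y ∈ ball a δ,
    |u x - u y| ≤ (ρ a + ε) * ‖x - y‖

/-- far cutoffs -/
structure Cf (R₀ : ℝ) (χ : ℂ → ℝ) : Prop where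
  smooth : ContDiff ℝ 2 (fun z => ((χ z : ℝ) : ℂ))
  supp : HasCompactSupport χ
  one : ∀ z ∈ closedBall (0:ℂ) (R₀ + 1), χ z = 1
  nn : ∀ z, 0 ≤ χ z
  le : ∀ z, χ z ≤ 1

/-- the smoothed mixed area of `f` and `g` -/
noncomputable def ar (χ : ℂ → ℝ) (f g : ℂ → ℂ) : ℝ :=
  -(1 / 2) * (∫ z, db (fun z => ((χ z : ℝ) : ℂ)) z * (conj (g z) * deriv f z)).re

/-- the energy -/
noncomputable def enr (Ω : Set ℂ) (χ ρ : ℂ → ℝ) : ℝ := ∫ z in Ω, χ z * ρ z ^ 2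

/-- E0a: integration by parts with difference quotients (no derivatives of `U`, `V`) -/
def E0a : Prop := ∀ {Ω : Set ℂ} (_ : IsOpen Ω) {U V ρ : ℂ → ℝ} (_ : Maj Ω U ρ) (_ : Maj Ω V ρ)
    {ψ : ℂ → ℝ} (_ : ContDiff ℝ 1 (fun z => ((ψ z : ℝ) : ℂ))) (_ : HasCompactSupport ψ)
    (_ : tsupport ψ ⊆ Ω) (_ : ∀ z, 0 ≤ ψ z),
    -(∫ z, db (fun z => ((ψ z : ℝ) : ℂ)) z * conj ((U z : ℂ) + V z * Complex.I)).re ≤
      2 * ∫ z, ψ z * ρ z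

open Classical in
/-- the cutoff in the picture -/
noncomputable def pb {n : ℕ} (c : Fin n → ℂ) (r : Fin n → ℝ) (h : ℂ → ℂ) (χ : ℂ → ℝ) (w : ℂ) : ℝ :=
  if w ∈ ⋃ j, closedBall (c j) (r j) then 1 else χ (h w)

/-- the map from the domain to the picture -/
noncomputable def hi {n : ℕ} (c : Fin n → ℂ) (r : Fin n → ℝ) (h : ℂ → ℂ) : ℂ → ℂ :=
  Function.invFunOn h (⋃ j, closedBall (c j) (r j))ᶜ

/-- E0b1: the cutoff in the picture is a cutoff, equal to `1` near the disks -/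
def E0b1 : Prop := ∀ {n : ℕ} {c : Fin n → ℂ} {r : Fin n → ℝ} {L : Fin n → Set ℂ} {h : ℂ → ℂ}
    {B : ℝ} (_ : EP c r L h B) {R₀ : ℝ} (_ : 0 < R₀) (_ : ∀ j, L j ⊆ closedBall 0 R₀)
    {χ : ℂ → ℝ} (_ : Cf R₀ χ),
    ContDiff ℝ 2 (fun z => ((pb c r h χ z : ℝ) : ℂ)) ∧ HasCompactSupport (pb c r h χ) ∧
      ∃ δ > 0, ∀ j, ∀ z, infDist z (closedBall (c j) (r j)) < δ → pb c r h χ z = 1

/-- E0b2: change of variables in the line term -/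
def E0b2 : Prop := ∀ {n : ℕ} {c : Fin n → ℂ} {r : Fin n → ℝ} {L : Fin n → Set ℂ} {h : ℂ → ℂ}
    {B : ℝ} (_ : EP c r L h B) {R₀ : ℝ} (_ : 0 < R₀) (_ : ∀ j, L j ⊆ closedBall 0 R₀)
    {χ : ℂ → ℝ} (_ : Cf R₀ χ) (g : ℂ → ℂ),
    ∫ z, db (fun z => ((χ z : ℝ) : ℂ)) z * (conj (g z) * deriv (hi c r h) z) =
      ∫ w, db (fun z => ((pb c r h χ z : ℝ) : ℂ)) w * conj (g (h w))

/-- E0b3: change of variables in the energy, and the majorants in the picture -/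
def E0b3 : Prop := ∀ {n : ℕ} {c : Fin n → ℂ} {r : Fin n → ℝ} {L : Fin n → Set ℂ} {h : ℂ → ℂ}
    {B : ℝ} (_ : EP c r L h B) (χ ρ : ℂ → ℝ),
    enr (⋃ j, L j)ᶜ χ ρ =
      enr (⋃ j, closedBall (c j) (r j))ᶜ (fun w => χ (h w)) (fun w => ρ (h w) * ‖deriv h w‖) ∧
    (IntegrableOn (fun z => χ z * ρ z ^ 2) (⋃ j, L j)ᶜ →
      IntegrableOn (fun w => χ (h w) * (ρ (h w) * ‖deriv h w‖) ^ 2)
        (⋃ j, closedBall (c j) (r j))ᶜ) ∧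
    ∀ u : ℂ → ℝ, Maj (⋃ j, L j)ᶜ u ρ →
      Maj (⋃ j, closedBall (c j) (r j))ᶜ (fun w => u (h w)) (fun w => ρ (h w) * ‖deriv h w‖)

/-- E0c: symmetry of the mixed area -/
def E0c : Prop := ∀ {V : Set ℂ} (_ : IsOpen V) {a b : ℂ → ℂ} (_ : DifferentiableOn ℂ a V)
    (_ : DifferentiableOn ℂ b V) {χ : ℂ → ℝ} (_ : ContDiff ℝ 2 (fun z => ((χ z : ℝ) : ℂ)))
    (_ : HasCompactSupport χ) (_ : ∀ z, z ∉ V → ∃ t : ℝ, ∀ᶠ y in 𝓝 z, χ y = t),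
    ar χ a b = ar χ b a

/-- E0d: the area of a map which is `O(1/z)` at infinity is nonpositive -/
def E0d : Prop := ∀ {R₀ : ℝ} (_ : 0 < R₀) {d : ℂ → ℂ} (_ : DifferentiableOn ℂ d {z | R₀ < ‖z‖})
    (_ : Tendsto d (cobounded ℂ) (𝓝 0)) {χ : ℂ → ℝ} (_ : Cf R₀ χ), ar χ d d ≤ 0

/-- E0e: the inequality in the picture -/
def E0e : Prop := ∀ {n : ℕ} {c : Fin n → ℂ} {r : Fin n → ℝ} (_ : ∀ j, 0 < r j)
    (_ : ∀ i j, i ≠ j → Disjoint (closedBall (c i) (r i)) (closedBall (c j) (r j)))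
    {χ : ℂ → ℝ} (_ : ContDiff ℝ 1 (fun z => ((χ z : ℝ) : ℂ))) (_ : HasCompactSupport χ)
    (_ : ∀ z, 0 ≤ χ z)
    {δ : ℝ} (_ : 0 < δ) (_ : ∀ j, ∀ z, infDist z (closedBall (c j) (r j)) < δ → χ z = 1)
    {U V ρ : ℂ → ℝ} (_ : Maj (⋃ j, closedBall (c j) (r j))ᶜ U ρ)
    (_ : Maj (⋃ j, closedBall (c j) (r j))ᶜ V ρ)
    (_ : IntegrableOn (fun w => χ w * ρ w ^ 2) (⋃ j, closedBall (c j) (r j))ᶜ)
    {p : Fin n → ℂ} {M : Fin n → ℝ} (_ : ∀ j, 0 ≤ M j)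
    (_ : ∀ j, ∀ ε > (0:ℝ), ∃ t > (0:ℝ), ∀ z : ℂ, z ∉ (⋃ j, closedBall (c j) (r j)) →
      infDist z (closedBall (c j) (r j)) < t → ‖((U z : ℂ) + V z * Complex.I) - p j‖ ≤ M j + ε),
    -(∫ z, db (fun z => ((χ z : ℝ) : ℂ)) z * conj ((U z : ℂ) + V z * Complex.I)).re ≤
      (∫ z : ℂ, χ z) + enr (⋃ j, closedBall (c j) (r j))ᶜ χ ρ + π * (∑ j, M j ^ 2)

/-- **E0**: the circumradius principle -/
def E0 : Prop := ∀ {n : ℕ} {c : Fin n → ℂ} {r : Fin n → ℝ} {L : Fin n → Set ℂ} {h : ℂ → ℂ}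
    {B : ℝ} (_ : EP c r L h B) {R₀ : ℝ} (_ : 0 < R₀) (_ : ∀ j, L j ⊆ closedBall 0 R₀)
    {U V ρ : ℂ → ℝ} (_ : Maj (⋃ j, L j)ᶜ U ρ) (_ : Maj (⋃ j, L j)ᶜ V ρ)
    {g : ℂ → ℂ} (_ : DifferentiableOn ℂ g {z | R₀ < ‖z‖})
    (_ : Tendsto (fun z => g z - z) (cobounded ℂ) (𝓝 0))
    (_ : ∀ z, R₀ < ‖z‖ → g z = (U z : ℂ) + V z * Complex.I)
    {p : Fin n → ℂ} {M : Fin n → ℝ} (_ : ∀ j, 0 ≤ M j)
    (_ : ∀ j, ∀ ε > (0:ℝ), ∃ t > (0:ℝ), ∀ z : ℂ, z ∉ (⋃ j, L j) → infDist z (L j) < t →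
      ‖((U z : ℂ) + V z * Complex.I) - p j‖ ≤ M j + ε)
    {χ : ℂ → ℝ} (_ : Cf R₀ χ) (_ : IntegrableOn (fun z => χ z * ρ z ^ 2) (⋃ j, L j)ᶜ),
    ar χ g g ≤ enr (⋃ j, L j)ᶜ χ ρ + π * (∑ j, M j ^ 2)

/-- **AR**: the area inequality for a univalent map; `D` is any measurable set of omitted values
(the disks of the good ends) -/
def AR : Prop := ∀ {K : Set ℂ} (_ : IsCompact K) {f : ℂ → ℂ} (_ : NU Kᶜ f) {D : Set ℂ}
    (_ : MeasurableSet D) (_ : Disjoint D (f '' Kᶜ)) {R₀ : ℝ} (_ : 0 < R₀)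
    (_ : K ⊆ closedBall 0 R₀) {χ : ℂ → ℝ} (_ : Cf R₀ χ),
    IntegrableOn (fun z => χ z * ‖deriv f z‖ ^ 2) Kᶜ ∧
    enr Kᶜ χ (fun z => ‖deriv f z‖) + (volume D).toReal ≤ ar χ f f

/-- existence of far cutoffs -/
def CfEx : Prop := ∀ {R₀ : ℝ} (_ : 0 < R₀), ∃ χ, Cf R₀ χ

end Vale.Agent.P116.Cl
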