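import Vale.Agent.P116.Cl.E0Spec

/-!
# Block E0a: integration by parts for functions with a gradient majorant
-/

set_option linter.all false

open Set Filter Topology Metric Bornology MeasureTheory
open scoped ComplexConjugate Real

namespace Vale.Agent.P116.Cl

open FK Ms H906

/-- one direction -/
lemma e0a_dir {Ω : Set ℂ} (hΩ : IsOpen Ω) {U ρ : ℂ → ℝ} (hU : Maj Ω U ρ)
    {ψ : ℂ → ℝ} (hψ : ContDiff ℝ 1 ψ) (hs : HasCompactSupport ψ)
    (hsub : tsupport ψ ⊆ Ω) (h0 : ∀ z, 0 ≤ ψ z) {v : ℂ} (hv : ‖v‖ = 1) :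
    -(∫ z, fderiv ℝ ψ z v * U z) ≤ ∫ z, ψ z * ρ z := by
  -- a compact neighbourhood of the support inside `Ω`
  obtain ⟨δ, hδ, hδΩ⟩ := hs.isCompact.exists_cthickening_subset_open hΩ hsub
  have hc : IsCompact (cthickening δ (tsupport ψ)) := hs.isCompact.cthickening
  -- Lipschitz there
  have hll : LocallyLipschitzOn (cthickening δ (tsupport ψ)) U := by
    intro a ha
    obtain ⟨η, hη, h⟩ := hU.lip a (hδΩ ha) 1 one_pos
    have hnn := hU.nn a (hδΩ ha)
    refine ⟨⟨ρ a + 1, by linarith⟩, ball a η, mem_nhdsWithin_of_mem_nhds (ball_mem_nhds a hη), ?_⟩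
    refine LipschitzOnWith.of_dist_le_mul fun x hx y hy => ?_
    rw [Real.dist_eq, dist_eq_norm]
    exact h x hx y hy
  obtain ⟨C, hC⟩ := hll.exists_lipschitzOnWith_of_compact hc
  obtain ⟨g, hg, hgU⟩ := hC.extend_real
  obtain ⟨D, hD⟩ := hψ.lipschitzWith_of_hasCompactSupport hs one_ne_zero
  have hparts := hg.integral_lineDeriv_mul_eq (μ := (volume : Measure ℂ)) hD hs v
  have hψd : Differentiable ℝ ψ := hψ.differentiable one_ne_zero
  have e1 : ∀ z, lineDeriv ℝ ψ z (-v) * g z = -(fderiv ℝ ψ z v * U z) := by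
    intro z
    rw [(hψd z).lineDeriv_eq_fderiv, map_neg]
    by_cases hz : z ∈ tsupport ψ
    · rw [hgU (self_subset_cthickening _ hz)]
      ring
    · have h1 : fderiv ℝ ψ z = 0 := by
        have h2 : ψ =ᶠ[𝓝 z] fun _ => 0 := notMem_tsupport_iff_eventuallyEq.1 hz
        rw [h2.fderiv_eq]
        simp
      rw [h1]
      simp
  have e2 : -(∫ z, fderiv ℝ ψ z v * U z) = ∫ z, lineDeriv ℝ g z v * ψ z := by
    rw [hparts, ← integral_neg]
    exact integral_congr_ae (Eventually.of_forall fun z => (e1 z).symm)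
  rw [e2]
  refine integral_mono ?_ ?_ ?_
  · -- integrable
    have hm : MemLp (fun x => lineDeriv ℝ g x v) ⊤ volume := hg.memLp_lineDeriv v
    have hi : Integrable ψ := hD.continuous.integrable_of_hasCompactSupport hs
    exact hi.bdd_mul hm.1 (c := C * ‖v‖)
      (Eventually.of_forall fun x => norm_lineDeriv_le_of_lipschitz ℝ hg)
  · -- continuous with compact support
    have hcont : Continuous fun z => ψ z * ρ z := by
      refine continuous_iff_continuousAt.2 fun z => ?_
      by_cases hz : z ∈ tsupport ψ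
      · exact (hD.continuous.continuousAt).mul
          ((hU.cont z (hsub hz)).continuousAt (hΩ.mem_nhds (hsub hz)))
      · have h2 : ψ =ᶠ[𝓝 z] fun _ => 0 := notMem_tsupport_iff_eventuallyEq.1 hz
        have h3 : (fun z => ψ z * ρ z) =ᶠ[𝓝 z] fun _ => 0 := by
          filter_upwards [h2] with y hy
          rw [hy, zero_mul]
        exact continuousAt_const.congr h3.symm
    exact hcont.integrable_of_hasCompactSupport hs.mul_right
  · intro z
    show lineDeriv ℝ g z v * ψ z ≤ ψ z * ρ z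
    by_cases hz : z ∈ tsupport ψ
    · rw [mul_comm]
      refine mul_le_mul_of_nonneg_left ?_ (h0 z)
      refine le_of_forall_pos_le_add fun ε hε => ?_
      obtain ⟨η, hη, h⟩ := hU.lip z (hsub hz) ε hε
      have hnn := hU.nn z (hsub hz)
      have h4 := norm_lineDeriv_le_of_lip' ℝ (f := g) (x₀ := z) (v := v) (C := ρ z + ε)
        (by linarith) (by
          filter_upwards [ball_mem_nhds z (lt_min hη hδ)] with x hx
          have hx1 : x ∈ ball z η := ball_subset_ball (min_le_left _ _) hx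
          have hx2 : x ∈ cthickening δ (tsupport ψ) := by
            refine mem_cthickening_of_dist_le x z δ _ hz ?_
            exact (mem_ball.1 (ball_subset_ball (min_le_right _ _) hx)).le
          rw [← hgU hx2, ← hgU (self_subset_cthickening _ hz), Real.norm_eq_abs]
          exact h x hx1 z (mem_ball_self hη))
      rw [hv, mul_one] at h4
      exact (le_abs_self _).trans h4
    · rw [image_eq_zero_of_notMem_tsupport hz]
      simp

lemma e0a_int {Ω : Set ℂ} {U ρ : ℂ → ℝ} (hU : Maj Ω U ρ)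
    {ψ : ℂ → ℝ} (hψ : ContDiff ℝ 1 ψ) (hs : HasCompactSupport ψ)
    (hsub : tsupport ψ ⊆ Ω) (v : ℂ) :
    Integrable fun z => fderiv ℝ ψ z v * U z := by
  have hfc : Continuous fun z => fderiv ℝ ψ z v :=
    (hψ.continuous_fderiv one_ne_zero).clm_apply continuous_const
  have h2 : ∀ z ∉ tsupport ψ, fderiv ℝ ψ z v = 0 := by
    intro z hz
    have h2 : ψ =ᶠ[𝓝 z] fun _ => 0 := notMem_tsupport_iff_eventuallyEq.1 hz
    rw [h2.fderiv_eq]
    simp
  have hUc : ∀ z ∈ Ω, ContinuousAt U z := by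
    intro z hz
    obtain ⟨η, hη, h⟩ := hU.lip z hz 1 one_pos
    rw [ContinuousAt, tendsto_iff_norm_sub_tendsto_zero]
    have h1 : Tendsto (fun w => (ρ z + 1) * ‖w - z‖) (𝓝 z) (𝓝 0) := by
      have h2 : Tendsto (fun w : ℂ => ‖w - z‖) (𝓝 z) (𝓝 0) :=
        tendsto_iff_norm_sub_tendsto_zero.1 tendsto_id
      simpa using h2.const_mul (ρ z + 1)
    refine squeeze_zero' (Eventually.of_forall fun _ => norm_nonneg _) ?_ h1
    filter_upwards [ball_mem_nhds z hη] with w hw
    exact h w hw z (mem_ball_self hη)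
  have hcont : Continuous fun z => fderiv ℝ ψ z v * U z := by
    refine continuous_iff_continuousAt.2 fun z => ?_
    by_cases hz : z ∈ tsupport ψ
    · exact hfc.continuousAt.mul (hUc z (hsub hz))
    · have h3 : (fun z => fderiv ℝ ψ z v * U z) =ᶠ[𝓝 z] fun _ => 0 := by
        filter_upwards [(isClosed_tsupport ψ).isOpen_compl.mem_nhds hz] with y hy
        rw [h2 y hy, zero_mul]
      exact continuousAt_const.congr h3.symm
  refine hcont.integrable_of_hasCompactSupport ?_
  refine HasCompactSupport.intro hs.isCompact fun z hz => ?_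
  rw [h2 z hz, zero_mul]

theorem e0a : E0a := by
  intro Ω hΩ U V ρ hU hV ψ hψ hs hsub h0
  have hψr : ContDiff ℝ 1 ψ := by
    have h1 : ContDiff ℝ 1 fun z => (((ψ z : ℝ) : ℂ)).re := Complex.reCLM.contDiff.comp hψ
    simpa using h1
  have hψd : Differentiable ℝ ψ := hψr.differentiable one_ne_zero
  have hfd : ∀ z v, fderiv ℝ (fun z => ((ψ z : ℝ) : ℂ)) z v = ((fderiv ℝ ψ z v : ℝ) : ℂ) := by
    intro z v
    have h1 := (Complex.ofRealCLM.hasFDerivAt (x := ψ z)).comp z (hψd z).hasFDerivAt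
    have h2 : fderiv ℝ (fun z => ((ψ z : ℝ) : ℂ)) z = _ := h1.fderiv
    rw [h2]
    simp
  have hA1 := e0a_int hU hψr hs hsub 1
  have hA2 := e0a_int hV hψr hs hsub Complex.I
  have hB1 := e0a_int hU hψr hs hsub Complex.I
  have hB2 := e0a_int hV hψr hs hsub 1
  have hprod : ∀ z, db (fun z => ((ψ z : ℝ) : ℂ)) z * conj ((U z : ℂ) + V z * Complex.I) =
      ((fderiv ℝ ψ z 1 * U z + fderiv ℝ ψ z Complex.I * V z : ℝ) : ℂ) +
      ((fderiv ℝ ψ z Complex.I * U z - fderiv ℝ ψ z 1 * V z : ℝ) : ℂ) * Complex.I := by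
    intro z
    rw [db, hfd, hfd]
    apply Complex.ext
    · simp
    · simp
      ring
  have hre : (∫ z, db (fun z => ((ψ z : ℝ) : ℂ)) z * conj ((U z : ℂ) + V z * Complex.I)).re =
      (∫ z, fderiv ℝ ψ z 1 * U z) + ∫ z, fderiv ℝ ψ z Complex.I * V z := by
    rw [integral_congr_ae (Eventually.of_forall hprod)]
    have hA : Integrable fun z => (((fderiv ℝ ψ z 1 * U z +
        fderiv ℝ ψ z Complex.I * V z : ℝ)) : ℂ) := (hA1.add hA2).ofReal
    have hB : Integrable fun z => ((fderiv ℝ ψ z Complex.I * U z -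
        fderiv ℝ ψ z 1 * V z : ℝ) : ℂ) := (hB1.sub hB2).ofReal
    rw [integral_add hA (hB.mul_const _), integral_mul_const, integral_complex_ofReal,
      integral_complex_ofReal, integral_add hA1 hA2]
    simp
  rw [hre]
  have h1 := e0a_dir hΩ hU hψr hs hsub h0 (v := 1) (by simp)
  have h2 := e0a_dir hΩ hV hψr hs hsub h0 (v := Complex.I) (by simp)
  linarith

end Vale.Agent.P116.Cl
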