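import Vale.Agent.P116.KB.TopDef
import Vale.Agent.P116.G.Def
import Vale.Agent.P116.Slow.E

/-!
P116, full Koebe, block [45]: excess accounting. A structure of small excess for `u`, with pieces
of deep levels: the pieces off finitely many ends carry little oscillation.
-/

open Set Filter Topology Metric Bornology MeasureTheory

namespace Vale.Agent.P116.Cl.Exc

open H906 PBC Slow KB

variable {K w : Set ℂ} {u ρ : ℂ → ℝ}

/-- `u` is bounded on `A`, off `K` -/
def Bd (K A : Set ℂ) (u : ℂ → ℝ) : Prop := ∃ B, ∀ z ∈ A, z ∉ K → |u z| ≤ B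

lemma Bd.mono {A A' : Set ℂ} (h : Bd K A' u) (hA : A ⊆ A') : Bd K A u := by
  obtain ⟨B, hB⟩ := h
  exact ⟨B, fun z hz hzK => hB z (hA hz) hzK⟩

lemma Bd.above {A : Set ℂ} (h : Bd K A u) : BddAbove (u '' (A \ K)) := by
  obtain ⟨B, hB⟩ := h
  refine ⟨B, ?_⟩
  rintro _ ⟨z, hz, rfl⟩
  exact (abs_le.1 (hB z hz.1 hz.2)).2

lemma Bd.below {A : Set ℂ} (h : Bd K A u) : BddBelow (u '' (A \ K)) := by
  obtain ⟨B, hB⟩ := h
  refine ⟨-B, ?_⟩
  rintro _ ⟨z, hz, rfl⟩
  exact (abs_le.1 (hB z hz.1 hz.2)).1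

lemma oscS_nn {A : Set ℂ} (h : Bd K A u) : 0 ≤ oscS K u A := by
  rcases (A \ K).eq_empty_or_nonempty with h1 | ⟨z, hz⟩
  · simp [oscS, h1]
  · rw [oscS, sub_nonneg]
    exact (csInf_le h.below (mem_image_of_mem u hz)).trans (le_csSup h.above (mem_image_of_mem u hz))

/-- monotonicity; the smaller set may be any nonempty set of values -/
lemma sub_le_oscS {A T : Set ℂ} (h : Bd K A u) (hT : T ⊆ A \ K) (hne : T.Nonempty) :
    sSup (u '' T) - sInf (u '' T) ≤ oscS K u A := by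
  have h1 : u '' T ⊆ u '' (A \ K) := image_mono hT
  have h2 := csSup_le_csSup h.above (hne.image u) h1
  have h3 := csInf_le_csInf h.below (hne.image u) h1
  rw [oscS]
  linarith

lemma oscS_mono' {A A' : Set ℂ} (h : Bd K A' u) (hA : A ⊆ A') : oscS K u A ≤ oscS K u A' := by
  rcases (A \ K).eq_empty_or_nonempty with h1 | h1
  · have : oscS K u A = 0 := by simp [oscS, h1]
    rw [this]
    exact oscS_nn h
  · exact sub_le_oscS h (sdiff_subset_sdiff_left hA) h1

lemma Hon.bd (h : Hon K w u ρ) {A : Set ℂ} (hA : A ⊆ lev K 0) : Bd K A u := by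
  obtain ⟨B, hB⟩ := h.bdd
  exact ⟨B, fun z hz hzK => hB z (hA hz) hzK⟩

/-- the union of the nodes of level `n` of the points of a component is one node -/
lemma iUnion_nd {c : Set ℂ} (hc : c ∈ comps K) {x : ℂ} (hx : x ∈ c) (n : ℕ) :
    (⋃ y ∈ c, nd K n y) = nd K n x := by
  refine Subset.antisymm (iUnion₂_subset fun y hy => ?_) (subset_iUnion₂_of_subset x hx Subset.rfl)
  exact (nd_eq (comp_subset_nd hc hx n hy)).subset

lemma oscC_nn (h : ∃ B, ∀ z ∈ lev K 0, z ∉ K → |u z| ≤ B) {c : Set ℂ} (hc : c ∈ comps K) :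
    0 ≤ oscC K u c := by
  obtain ⟨x, hx⟩ := comps_nonempty hc
  refine le_ciInf fun n => oscS_nn ?_
  rw [iUnion_nd hc hx]
  obtain ⟨B, hB⟩ := h
  exact ⟨B, fun z hz hzK => hB z (nd_sub_lev0 n x hz) hzK⟩

/-- a piece which contains a node around `c` has at least the oscillation of `c` -/
lemma oscC_le_of_nd (h : ∃ B, ∀ z ∈ lev K 0, z ∉ K → |u z| ≤ B) {c : Set ℂ} (hc : c ∈ comps K)
    {x : ℂ} (hx : x ∈ c) {n : ℕ} {A : Set ℂ} (hA : nd K n x ⊆ A) (hAl : A ⊆ lev K 0) :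
    oscC K u c ≤ oscS K u A := by
  have hb : Bd K A u := by
    obtain ⟨B, hB⟩ := h
    exact ⟨B, fun z hz hzK => hB z (hAl hz) hzK⟩
  have h1 : oscC K u c ≤ oscS K u (⋃ y ∈ c, nd K n y) := by
    refine ciInf_le ⟨0, ?_⟩ n
    rintro _ ⟨m, rfl⟩
    have h2 : Bd K (⋃ y ∈ c, nd K m y) u := by
      rw [iUnion_nd hc hx]
      obtain ⟨B, hB⟩ := h
      exact ⟨B, fun z hz hzK => hB z (nd_sub_lev0 m x hz) hzK⟩
    exact oscS_nn h2
  rw [iUnion_nd hc hx] at h1
  exact h1.trans (oscS_mono' hb hA)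

/-- a component which meets a piece is in its interior -/
lemma comp_subset_piece {P : Set ℂ} (hP : G.Pc K P) {c : Set ℂ} (hc : c ∈ comps K)
    (h : (c ∩ P).Nonempty) : c ⊆ interior P := by
  have h1 : c ⊆ P := subset_of_frontier_disjoint (comps_isPreconnected hc) h
    (hP.fr.mono_right (comps_subset hc)).symm
  intro z hz
  by_contra hcon
  exact Set.disjoint_left.1 hP.fr ⟨subset_closure (h1 hz), hcon⟩ (comps_subset hc hz)

lemma oscC_le_piece (hK : IsCompact K) (hf : Full K)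
    (hb : ∃ B, ∀ z ∈ lev K 0, z ∉ K → |u z| ≤ B) {P : Set ℂ} (hP : G.Pc K P)
    (hPl : P ⊆ lev K 0) {c : Set ℂ} (hc : c ∈ comps K) (h : (c ∩ P).Nonempty) :
    oscC K u c ≤ oscS K u P := by
  obtain ⟨x, hx⟩ := comps_nonempty hc
  have h1 := comp_subset_piece hP hc h
  rw [comps_eq hc hx] at h1
  obtain ⟨n, hn⟩ := exists_nd_subset hK hf (comps_subset hc hx) isOpen_interior h1
  exact oscC_le_of_nd hb hc hx (hn.trans interior_subset) hPl

/-- a piece inside a level which meets a node of this level is inside the node -/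
lemma piece_subset_nd {P : Set ℂ} (hP : G.Pc K P) {n : ℕ} (hPl : P ⊆ lev K n) {x z : ℂ}
    (hz : z ∈ P) (hzx : z ∈ nd K n x) : P ⊆ nd K n x := by
  have h1 : P ⊆ connectedComponentIn (lev K n) z :=
    hP.conn'.isPreconnected.subset_connectedComponentIn hz hPl
  exact h1.trans (nd_eq hzx).subset

/-- different components have different nodes, eventually -/
lemma exists_nd_ne (hK : IsCompact K) (hf : Full K) {c c' : Set ℂ} (hc : c ∈ comps K)
    (hc' : c' ∈ comps K) (hne : c ≠ c') {x y : ℂ} (hx : x ∈ c) (hy : y ∈ c') :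
    ∃ n₀, ∀ n ≥ n₀, nd K n x ≠ nd K n y := by
  by_contra hcon
  push Not at hcon
  apply hne
  rw [comps_eq hc hx, comps_eq hc' hy, ← iInter_nd hK hf (comps_subset hc hx),
    ← iInter_nd hK hf (comps_subset hc' hy)]
  refine Subset.antisymm ?_ ?_
  · refine subset_iInter fun n => ?_
    obtain ⟨m, hm, h⟩ := hcon n
    exact (iInter_subset _ m).trans (h.subset.trans (nd_anti hm))
  · refine subset_iInter fun n => ?_
    obtain ⟨m, hm, h⟩ := hcon n
    exact (iInter_subset _ m).trans (h.symm.subset.trans (nd_anti hm))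

/-- **excess accounting** -/
theorem excess (hK : IsCompact K) (hf : Full K) {n₀ : ℕ} {y₀ : ℂ} (hw : w = nd K n₀ y₀)
    (hu : Hon K w u ρ) (F₀ : Finset (Set ℂ)) (hF : ∀ c ∈ F₀, c ∈ comps K ∧ c ⊆ w) :
    ∃ N₀, ∀ N ≥ N₀, ∀ S : Set (Set ℂ), G.NS K (lev K 0) S → (∀ P ∈ S, P ⊆ lev K N) →
      (∀ x ∈ K, x ∈ w → ∃ P ∈ S, x ∈ P) → ∀ d : ℝ, (∑ᶠ P ∈ S, oP K w u P) ≤ Eo K w u + d →
      ∀ J : Finset (Set ℂ), (∀ P ∈ J, P ∈ S ∧ P ⊆ w ∧ Disjoint P (⋃₀ (F₀ : Set (Set ℂ)))) →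
        ∑ P ∈ J, oscS K u P ^ 2 ≤
          (∑' c : comps K, (open Classical in if (c : Set ℂ) ∈ F₀ then 0 else oc K w u c)) + d := by
  classical
  -- the level
  have hne : ∀ c ∈ F₀, c.Nonempty := fun c hc => comps_nonempty (hF c hc).1
  choose! pt hpt using hne
  have h1 : ∀ c ∈ F₀, ∀ c' ∈ F₀, ∀ᶠ n in atTop, c ≠ c' → nd K n (pt c) ≠ nd K n (pt c') := by
    intro c hc c' hc'
    by_cases h : c = c'
    · exact Eventually.of_forall fun n hne => absurd h hne
    · obtain ⟨n₁, hn₁⟩ := exists_nd_ne hK hf (hF c hc).1 (hF c' hc').1 h (hpt c hc) (hpt c' hc')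
      filter_upwards [eventually_ge_atTop n₁] with n hn _
      exact hn₁ n hn
  have h2 : ∀ᶠ n in atTop, (∀ c ∈ F₀, ∀ c' ∈ F₀, c ≠ c' → nd K n (pt c) ≠ nd K n (pt c')) ∧
      n₀ ≤ n := by
    refine Eventually.and ?_ (eventually_ge_atTop n₀)
    rw [Filter.eventually_all_finset]
    intro c hc
    rw [Filter.eventually_all_finset]
    exact h1 c hc
  obtain ⟨N₀, hN₀⟩ := eventually_atTop.1 h2
  refine ⟨N₀, fun N hN S hS hSl hcov d hd J hJ => ?_⟩
  obtain ⟨hsep, hNn⟩ := hN₀ N hN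
  -- the pieces of the ends of `F₀`
  have h3 : ∀ c ∈ F₀, ∃ P ∈ S, c ⊆ P ∧ P ⊆ nd K N (pt c) ∧ P ⊆ w := by
    intro c hc
    have hcK := comps_subset (hF c hc).1 (hpt c hc)
    have hcw := (hF c hc).2 (hpt c hc)
    obtain ⟨P, hP, hxP⟩ := hcov (pt c) hcK hcw
    have h4 : P ⊆ nd K N (pt c) := piece_subset_nd (hS.pc P hP) (hSl P hP) hxP (mem_nd hcK N)
    refine ⟨P, hP, ?_, h4, ?_⟩
    · exact (comp_subset_piece (hS.pc P hP) (hF c hc).1 ⟨pt c, hpt c hc, hxP⟩).trans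
        interior_subset
    · refine h4.trans ((nd_anti hNn).trans ?_)
      rw [hw] at hcw ⊢
      exact (nd_eq hcw).subset
  choose! pc hpc using h3
  have hinj : Set.InjOn pc F₀ := by
    intro c hc c' hc' heq
    by_contra hcc
    apply hsep c hc c' hc' hcc
    have h4 : pt c ∈ nd K N (pt c') := (hpc c' hc').2.2.1 (heq ▸ (hpc c hc).2.1 (hpt c hc))
    exact nd_eq h4
  have hPl0 : ∀ P ∈ S, P ⊆ lev K 0 := fun P hP => hS.sub P hP
  -- the sum over `S`
  set I : Finset (Set ℂ) := J ∪ F₀.image pc with hI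
  have hIS : ∀ P ∈ I, P ∈ S ∧ P ⊆ w := by
    intro P hP
    rcases Finset.mem_union.1 hP with h | h
    · exact ⟨(hJ P h).1, (hJ P h).2.1⟩
    · obtain ⟨c, hc, rfl⟩ := Finset.mem_image.1 h
      exact ⟨(hpc c hc).1, (hpc c hc).2.2.2⟩
  have hdis : Disjoint J (F₀.image pc) := by
    rw [Finset.disjoint_left]
    intro P hP hP'
    obtain ⟨c, hc, rfl⟩ := Finset.mem_image.1 hP'
    exact Set.disjoint_left.1 (hJ _ hP).2.2 ((hpc c hc).2.1 (hpt c hc)) ⟨c, hc, hpt c hc⟩
  have hoPnn : ∀ P, 0 ≤ oP K w u P := by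
    intro P
    unfold oP
    split_ifs
    · positivity
    · exact le_rfl
  have h5 : ∑ P ∈ I, oP K w u P ≤ ∑ᶠ P ∈ S, oP K w u P := by
    rw [finsum_mem_eq_finite_toFinset_sum _ hS.fin]
    refine Finset.sum_le_sum_of_subset_of_nonneg (fun P hP => ?_) fun P _ _ => hoPnn P
    exact hS.fin.mem_toFinset.2 (hIS P hP).1
  have h6 : ∑ P ∈ I, oP K w u P = ∑ P ∈ J, oscS K u P ^ 2 + ∑ c ∈ F₀, oscS K u (pc c) ^ 2 := by
    rw [hI, Finset.sum_union hdis, Finset.sum_image hinj]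
    congr 1
    · refine Finset.sum_congr rfl fun P hP => ?_
      rw [oP, if_pos (hJ P hP).2.1]
    · refine Finset.sum_congr rfl fun c hc => ?_
      rw [oP, if_pos (hpc c hc).2.2.2]
  have h7 : ∑ c ∈ F₀, oc K w u c ≤ ∑ c ∈ F₀, oscS K u (pc c) ^ 2 := by
    refine Finset.sum_le_sum fun c hc => ?_
    rw [oc, if_pos (hF c hc).2]
    refine pow_le_pow_left₀ (oscC_nn hu.bdd (hF c hc).1) ?_ 2
    exact oscC_le_piece hK hf hu.bdd (hS.pc _ (hpc c hc).1) (hPl0 _ (hpc c hc).1) (hF c hc).1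
      ⟨pt c, hpt c hc, (hpc c hc).2.1 (hpt c hc)⟩
  -- splitting of `Eo`
  have hocnn : ∀ c, 0 ≤ oc K w u c := by
    intro c
    unfold oc
    split_ifs
    · positivity
    · exact le_rfl
  have hsum := Hon.sum' hu
  have hs1 : Summable fun c : comps K => if (c : Set ℂ) ∈ F₀ then 0 else oc K w u c := by
    refine Summable.of_nonneg_of_le (fun c => ?_) (fun c => ?_) hsum
    · split_ifs
      · exact le_rfl
      · exact hocnn _
    · split_ifs
      · exact hocnn _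
      · exact le_rfl
  have hs2 : Summable fun c : comps K => if (c : Set ℂ) ∈ F₀ then oc K w u c else 0 := by
    refine Summable.of_nonneg_of_le (fun c => ?_) (fun c => ?_) hsum
    · split_ifs
      · exact hocnn _
      · exact le_rfl
    · split_ifs
      · exact le_rfl
      · exact hocnn _
  have h8 : Eo K w u = (∑' c : comps K, if (c : Set ℂ) ∈ F₀ then 0 else oc K w u c) +
      ∑' c : comps K, if (c : Set ℂ) ∈ F₀ then oc K w u c else 0 := by
    rw [Eo, ← hs1.tsum_add hs2]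
    refine tsum_congr fun c => ?_
    split_ifs
    · rw [zero_add]
    · rw [add_zero]
  have h9 : (∑' c : comps K, if (c : Set ℂ) ∈ F₀ then oc K w u c else 0) ≤
      ∑ c ∈ F₀, oc K w u c := by
    refine hs2.tsum_le_of_sum_le fun s => ?_
    rw [← Finset.sum_filter]
    have e1 : ∑ c ∈ s.filter (fun c : comps K => (c : Set ℂ) ∈ F₀), oc K w u c =
        ∑ c ∈ (s.filter (fun c : comps K => (c : Set ℂ) ∈ F₀)).map
          (Function.Embedding.subtype _), oc K w u c := by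
      rw [Finset.sum_map]
      rfl
    rw [e1]
    refine Finset.sum_le_sum_of_subset_of_nonneg ?_ fun c _ _ => hocnn c
    intro c hc
    obtain ⟨c', hc', rfl⟩ := Finset.mem_map.1 hc
    exact (Finset.mem_filter.1 hc').2
  linarith

/-- the oscillation over the frontier of a piece -/
theorem frontier_osc_le {P : Set ℂ} (hP : G.Pc K P) (hb : Bd K P u) :
    sSup (u '' frontier P) - sInf (u '' frontier P) ≤ oscS K u P := by
  refine sub_le_oscS hb ?_ ?_
  · intro z hz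
    exact ⟨hP.cpt.isClosed.frontier_subset hz, Set.disjoint_left.1 hP.fr hz⟩
  · by_contra hcon
    rw [not_nonempty_iff_eq_empty] at hcon
    rcases frontier_eq_empty_iff.1 hcon with h | h
    · exact hP.nonempty.ne_empty h
    · exact noncompact_univ ℂ (h ▸ hP.cpt)

end Vale.Agent.P116.Cl.Exc
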