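import Vale.Agent.P116.Cl.Lev905
import Vale.Agent.P116.H906.Nodes

/-!
P116, full Koebe, block [45]: the frontiers of the nodes are null sets, and so are their images
under pairs of locally Lipschitz functions.
-/

open Set Filter Topology Metric Bornology MeasureTheory
open scoped ENNReal NNReal

namespace Vale.Agent.P116.Cl

open H906

/-- the points at distance exactly `r > 0` from a compact set form a null set -/
lemma volume_infDist_eq {K : Set ℂ} (hK : IsCompact K) {r : ℝ} (hr : 0 < r) :
    volume {z | infDist z K = r} = 0 := by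
  rcases K.eq_empty_or_nonempty with rfl | hne
  · have : {z : ℂ | infDist z ∅ = r} = ∅ := by
      ext z
      simp [infDist_empty, hr.ne]
    rw [this, measure_empty]
  set s : Set ℂ := {z | infDist z K = r} with hs
  have h1 := Besicovitch.ae_tendsto_measure_inter_div (volume : Measure ℂ) s
  have hsm : MeasurableSet s := (isClosed_eq (continuous_infDist_pt K) continuous_const).measurableSet
  rw [ae_restrict_iff' hsm] at h1
  have h2 : ∀ x ∈ s, ¬ Tendsto (fun t => volume (s ∩ closedBall x t) / volume (closedBall x t))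
      (𝓝[>] 0) (𝓝 1) := by
    intro x hx hlim
    obtain ⟨y, hy, hxy⟩ := hK.exists_infDist_eq_dist hne x
    have hxr : dist x y = r := by rw [← hxy]; exact hx
    have h3 : ∀ᶠ t in 𝓝[>] (0 : ℝ),
        volume (s ∩ closedBall x t) / volume (closedBall x t) ≤ 3 / 4 := by
      filter_upwards [Ioo_mem_nhdsGT hr] with t ht
      set x' : ℂ := x + ((t / 2 / r : ℝ) : ℂ) * (y - x) with hx'
      have hyx : ‖y - x‖ = r := by rw [← dist_eq_norm, dist_comm]; exact hxr
      have e1 : ‖x' - x‖ = t / 2 := by
        rw [hx', add_sub_cancel_left, norm_mul, Complex.norm_real, hyx,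
          Real.norm_of_nonneg (by have := ht.1; positivity)]
        field_simp
      have e2 : ‖x' - y‖ = r - t / 2 := by
        have : x' - y = ((1 - t / 2 / r : ℝ) : ℂ) * (x - y) := by
          rw [hx']; push_cast; ring
        rw [this, norm_mul, Complex.norm_real, ← norm_neg (x - y), neg_sub, hyx,
          Real.norm_of_nonneg]
        · field_simp
        · have h5 : t / 2 / r ≤ 1 := by rw [div_le_one hr]; linarith [ht.2]
          linarith
      have hb1 : ball x' (t / 2) ⊆ closedBall x t := by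
        intro z hz
        rw [mem_ball, dist_eq_norm] at hz
        rw [mem_closedBall, dist_eq_norm]
        calc ‖z - x‖ = ‖(z - x') + (x' - x)‖ := by congr 1; ring
          _ ≤ ‖z - x'‖ + ‖x' - x‖ := norm_add_le _ _
          _ ≤ t := by linarith
      have hb2 : Disjoint (s ∩ closedBall x t) (ball x' (t / 2)) := by
        rw [Set.disjoint_left]
        rintro z ⟨hz, -⟩ hz'
        rw [mem_ball, dist_eq_norm] at hz'
        have h5 : infDist z K ≤ dist z y := infDist_le_dist_of_mem hy
        have h6 : dist z y < r := by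
          rw [dist_eq_norm]
          calc ‖z - y‖ = ‖(z - x') + (x' - y)‖ := by congr 1; ring
            _ ≤ ‖z - x'‖ + ‖x' - y‖ := norm_add_le _ _
            _ < r := by linarith
        have h7 : infDist z K = r := hz
        linarith
      have h5 : volume (s ∩ closedBall x t) + volume (ball x' (t / 2)) ≤ volume (closedBall x t) := by
        rw [← measure_union hb2 measurableSet_ball]
        exact measure_mono (union_subset inter_subset_right hb1)
      rw [Complex.volume_ball, Complex.volume_closedBall] at h5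
      rw [Complex.volume_closedBall]
      have ht0 := ht.1
      have hπ : (0 : ℝ) < Real.pi := Real.pi_pos
      have e3 : ENNReal.ofReal t ^ 2 * (NNReal.pi : ℝ≥0∞) = ENNReal.ofReal (t ^ 2 * Real.pi) := by
        rw [ENNReal.ofReal_mul (by positivity), ENNReal.ofReal_pow ht0.le]
        congr 1
        rw [← NNReal.coe_real_pi, ENNReal.ofReal_coe_nnreal]
      have e4 : ENNReal.ofReal (t / 2) ^ 2 * (NNReal.pi : ℝ≥0∞) =
          ENNReal.ofReal (t ^ 2 * Real.pi / 4) := by
        rw [← ENNReal.ofReal_pow (by positivity), ← ENNReal.ofReal_coe_nnreal, NNReal.coe_real_pi,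
          ← ENNReal.ofReal_mul (by positivity)]
        congr 1
        ring
      rw [e3, e4] at h5
      rw [e3]
      have h6 : volume (s ∩ closedBall x t) ≤ ENNReal.ofReal (3 / 4 * (t ^ 2 * Real.pi)) := by
        have h7 : volume (s ∩ closedBall x t) ≤
            ENNReal.ofReal (t ^ 2 * Real.pi) - ENNReal.ofReal (t ^ 2 * Real.pi / 4) :=
          ENNReal.le_sub_of_add_le_right ENNReal.ofReal_ne_top h5
        refine h7.trans (le_of_eq ?_)
        rw [← ENNReal.ofReal_sub _ (by positivity)]
        congr 1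
        ring
      rw [ENNReal.div_le_iff (by simp only [ne_eq, ENNReal.ofReal_eq_zero, not_le]; positivity)
        ENNReal.ofReal_ne_top]
      refine h6.trans (le_of_eq ?_)
      rw [show (3 / 4 : ℝ≥0∞) = ENNReal.ofReal (3 / 4) by
        rw [ENNReal.ofReal_div_of_pos (by norm_num)]; norm_num,
        ← ENNReal.ofReal_mul (by norm_num)]
    have h4 := le_of_tendsto hlim h3
    have h5 : (3 / 4 : ℝ≥0∞) < 1 := by
      rw [ENNReal.div_lt_iff (by norm_num) (by norm_num)]
      norm_num
    exact absurd h4 (not_le.2 h5)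
  have h3 : ∀ᵐ x ∂(volume : Measure ℂ), x ∉ s := by
    filter_upwards [h1] with x hx hxs
    exact h2 x hxs (hx hxs)
  exact measure_eq_zero_iff_ae_notMem.2 h3

lemma frontier_fil_subset {A : Set ℂ} (hA : IsClosed A) : frontier (fil A) ⊆ frontier A := by
  rintro z ⟨hz, hz'⟩
  have hz1 : z ∈ fil A := (isClosed_fil hA).closure_eq ▸ hz
  have hzi : z ∉ interior A := fun h => hz' (interior_mono (subset_fil A) h)
  have hzA : z ∈ A := by
    by_contra hzA
    apply hz'
    obtain ⟨ε, hε, hb⟩ := Metric.isOpen_iff.1 hA.isOpen_compl z hzA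
    rw [mem_interior_iff_mem_nhds]
    filter_upwards [ball_mem_nhds z hε] with y hy hesc
    obtain ⟨C, h1, h2, h3, h4⟩ := hesc
    refine hz1 ⟨C ∪ ball z ε, ?_, Or.inr (mem_ball_self hε), ?_, ?_⟩
    · exact IsPreconnected.union y h2 hy h1 (convex_ball z ε).isPreconnected
    · refine Disjoint.union_left h3 ?_
      rw [Set.disjoint_left]
      exact fun w hw hwA => hb hw hwA
    · exact fun h => h4 (h.subset subset_union_left)
  exact ⟨subset_closure hzA, hzi⟩

lemma frontier_nd_subset {K : Set ℂ} (hK : IsCompact K) (n : ℕ) (x : ℂ) :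
    frontier (nd K n x) ⊆ frontier (lev K n) := by
  rintro z ⟨hz, hz'⟩
  have hcl : IsClosed (nd K n x) := (isCompact_nd hK n x).isClosed
  have hz1 : z ∈ nd K n x := hcl.closure_eq ▸ hz
  refine ⟨subset_closure (connectedComponentIn_subset _ _ hz1), fun hi => hz' ?_⟩
  obtain ⟨ε, hε, hb⟩ := Metric.isOpen_iff.1 isOpen_interior z hi
  rw [mem_interior_iff_mem_nhds]
  filter_upwards [ball_mem_nhds z hε] with y hy
  have h1 : ball z ε ⊆ connectedComponentIn (lev K n) z :=
    (convex_ball z ε).isPreconnected.subset_connectedComponentIn (mem_ball_self hε)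
      (hb.trans interior_subset)
  have h2 := h1 hy
  rwa [← connectedComponentIn_eq hz1] at h2

lemma volume_frontier_lev {K : Set ℂ} (hK : IsCompact K) (n : ℕ) :
    volume (frontier (lev K n)) = 0 := by
  refine measure_mono_null ?_ (volume_infDist_eq hK (lr_pos n))
  refine (frontier_fil_subset isClosed_cthickening).trans
    ((frontier_cthickening_subset K).trans ?_)
  intro z hz
  have hz' : infEDist z K = ENNReal.ofReal (lr n) := hz
  change infDist z K = lr n
  rw [infDist, hz', ENNReal.toReal_ofReal (lr_pos n).le]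

/-- **the frontiers of the nodes are null sets** -/
theorem volume_frontier_nd {K : Set ℂ} (hK : IsCompact K) (n : ℕ) (x : ℂ) :
    volume (frontier (nd K n x)) = 0 :=
  measure_mono_null (frontier_nd_subset hK n x) (volume_frontier_lev hK n)

/-- a pair with upper gradients is locally Lipschitz -/
lemma UG.locLip {G : Set ℂ} (hG : IsOpen G) {u ρ : ℂ → ℝ} (h : UG G u ρ) {x : ℂ} (hx : x ∈ G) :
    ∃ ε > 0, ∃ M : ℝ, 0 ≤ M ∧ ball x ε ⊆ G ∧ ∀ y ∈ ball x ε, ∀ z ∈ ball x ε,
      |u y - u z| ≤ M * ‖y - z‖ := by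
  have h1 : ContinuousAt ρ x := h.cont.continuousAt (hG.mem_nhds hx)
  have h2 : ∀ᶠ y in 𝓝 x, ρ y < ρ x + 1 := h1.eventually_lt continuousAt_const (by linarith)
  obtain ⟨ε, hε, hball⟩ := Metric.eventually_nhds_iff_ball.1 (h2.and (hG.mem_nhds hx))
  refine ⟨ε, hε, ρ x + 1, by linarith [h.nn x hx], fun y hy => (hball y hy).2, ?_⟩
  intro y hy z hz
  have hseg : segment ℝ y z ⊆ ball x ε := (convex_ball x ε).segment_subset hy hz
  exact h.le y z (fun w hw => (hball w (hseg hw)).2) _ fun w hw => (hball w (hseg hw)).1.le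

/-- the image of a null set under a pair with upper gradients is a null set -/
theorem volume_image_pair {G : Set ℂ} (hG : IsOpen G) {u ρ g σ : ℂ → ℝ} (hu : UG G u ρ)
    (hg : UG G g σ) {N : Set ℂ} (hN : N ⊆ G) (h0 : volume N = 0) :
    volume ((fun z => (u z, g z)) '' N) = 0 := by
  -- cover `N` by countably many balls on which both functions are Lipschitz
  have hloc : ∀ x ∈ N, ∃ V ∈ 𝓝[N] x, ∃ M : ℝ≥0, LipschitzOnWith M (fun z => (u z, g z)) V := by
    intro x hx
    obtain ⟨ε, hε, M, hM, hb, h1⟩ := hu.locLip hG (hN hx)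
    obtain ⟨ε', hε', M', hM', hb', h2⟩ := hg.locLip hG (hN hx)
    refine ⟨ball x (min ε ε'), mem_nhdsWithin_of_mem_nhds (ball_mem_nhds x (lt_min hε hε')),
      (max M M').toNNReal, ?_⟩
    refine LipschitzOnWith.of_dist_le_mul fun y hy z hz => ?_
    have hy1 := ball_subset_ball (min_le_left ε ε') hy
    have hz1 := ball_subset_ball (min_le_left ε ε') hz
    have hy2 := ball_subset_ball (min_le_right ε ε') hy
    have hz2 := ball_subset_ball (min_le_right ε ε') hz
    rw [Prod.dist_eq, Real.dist_eq, Real.dist_eq, dist_eq_norm,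
      Real.coe_toNNReal _ (hM.trans (le_max_left _ _))]
    refine max_le ((h1 y hy1 z hz1).trans ?_) ((h2 y hy2 z hz2).trans ?_)
    · exact mul_le_mul_of_nonneg_right (le_max_left _ _) (norm_nonneg _)
    · exact mul_le_mul_of_nonneg_right (le_max_right _ _) (norm_nonneg _)
  choose! V hV M hM using hloc
  obtain ⟨t, htN, htc, htcov⟩ := TopologicalSpace.countable_cover_nhdsWithin hV
  have hsub : (fun z => (u z, g z)) '' N ⊆ ⋃ x ∈ t, (fun z => (u z, g z)) '' (V x ∩ N) := by
    rintro _ ⟨z, hz, rfl⟩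
    obtain ⟨x, hx, hzx⟩ := mem_iUnion₂.1 (htcov hz)
    exact mem_biUnion hx ⟨z, ⟨hzx, hz⟩, rfl⟩
  refine measure_mono_null hsub ((measure_biUnion_null_iff htc).2 fun x hx => ?_)
  have h3 : LipschitzOnWith (M x) (fun z => (u z, g z)) (V x ∩ N) :=
    (hM x (htN hx)).mono inter_subset_left
  have he : LipschitzWith 2 (fun p : ℝ × ℝ => (⟨p.1, p.2⟩ : ℂ)) := by
    refine LipschitzWith.of_dist_le_mul fun p q => ?_
    rw [dist_eq_norm, Prod.dist_eq]
    have h1 := Complex.norm_le_abs_re_add_abs_im ((⟨p.1, p.2⟩ : ℂ) - ⟨q.1, q.2⟩)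
    simp only [Complex.sub_re, Complex.sub_im] at h1
    rw [← Real.dist_eq, ← Real.dist_eq] at h1
    have h2 := le_max_left (dist p.1 q.1) (dist p.2 q.2)
    have h3 := le_max_right (dist p.1 q.1) (dist p.2 q.2)
    push_cast
    linarith
  set A : Set (ℝ × ℝ) := (fun p : ℝ × ℝ => (⟨p.1, p.2⟩ : ℂ)) ⁻¹' (V x ∩ N) with hA
  have h4 : LipschitzOnWith (M x * 2) ((fun z => (u z, g z)) ∘ fun p : ℝ × ℝ => (⟨p.1, p.2⟩ : ℂ)) A :=
    h3.comp he.lipschitzOnWith (fun p hp => hp)
  have h5 : (volume : Measure (ℝ × ℝ)) = μH[2] := hausdorffMeasure_prod_real.symm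
  have h6 : (fun z => (u z, g z)) '' (V x ∩ N) =
      ((fun z => (u z, g z)) ∘ fun p : ℝ × ℝ => (⟨p.1, p.2⟩ : ℂ)) '' A := by
    rw [image_comp, hA, image_preimage_eq_of_subset]
    intro z _
    exact ⟨(z.re, z.im), rfl⟩
  have h7 : volume A = 0 := by
    have h8 : volume (V x ∩ N) = 0 := measure_mono_null inter_subset_right h0
    have h9 := Complex.volume_preserving_equiv_real_prod.symm.measure_preimage_equiv (V x ∩ N)
    rw [h8] at h9
    exact h9
  rw [h6, h5]
  refine le_antisymm ((h4.hausdorffMeasure_image_le (d := 2) (by norm_num)).trans ?_) bot_le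
  rw [← h5, h7, mul_zero]

/-- almost every level of `u` meets a null set in a set with null image under `g` -/
theorem ae_level_null {G : Set ℂ} (hG : IsOpen G) {u ρ g σ : ℂ → ℝ} (hu : UG G u ρ)
    (hg : UG G g σ) {N : Set ℂ} (hN : N ⊆ G) (h0 : volume N = 0) :
    ∀ᵐ s : ℝ, volume (g '' {z | z ∈ N ∧ u z = s}) = 0 := by
  have h1 := volume_image_pair hG hu hg hN h0
  have h2 := Measure.measure_ae_null_of_prod_null (μ := (volume : Measure ℝ))
    (ν := (volume : Measure ℝ)) (by rw [← Measure.volume_eq_prod]; exact h1)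
  filter_upwards [h2] with s hs
  refine measure_mono_null ?_ hs
  rintro _ ⟨z, ⟨hz, hzs⟩, rfl⟩
  exact ⟨z, hz, by rw [← hzs]⟩

end Vale.Agent.P116.Cl
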