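import Mathlib

/-!
P116, block [7] (adaptation lemma), finite part: common lattice definitions and the literal
Prop of the finite lemma (helper730's ABSORB / FILL / COUNT form).
-/

namespace Vale.Agent.P116.Cl

/-- vertices of the triangular lattice -/
abbrev L := ℤ × ℤ

/-- adjacency: differences `±(1,0)`, `±(0,1)`, `±(1,1)` -/
def Adj (a b : L) : Prop :=
  a ≠ b ∧ |a.1 - b.1| ≤ 1 ∧ |a.2 - b.2| ≤ 1 ∧ |(a.1 - b.1) - (a.2 - b.2)| ≤ 1

/-- connected set of vertices -/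
def LConn (X : Set L) : Prop :=
  ∀ a ∈ X, ∀ b ∈ X, Relation.ReflTransGen (fun x y => y ∈ X ∧ Adj x y) a b

/-- three pairwise adjacent vertices -/
def Tri (a b c : L) : Prop := Adj a b ∧ Adj b c ∧ Adj a c

/-- vertices of the complement of `C` which are joined to infinity off `C` -/
def Outer (C : Set L) : Set L :=
  {v | v ∉ C ∧ ∀ D : Set L, D.Finite →
    ∃ v', v' ∉ D ∧ Relation.ReflTransGen (fun x y => y ∉ C ∧ Adj x y) v v'}

/-- `C` with its holes filled -/
def fill (C : Set L) : Set L := (Outer C)ᶜ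

/-- third vertex of the triangle `(v, s)`; its vertices are `v`, `v + (1,1)`, `tp v s` -/
def tp (v : L) (s : Bool) : L := if s then v + (0, 1) else v + (1, 0)

/-- colour with `none` for the outside of `W` -/
noncomputable def ecol {Γ : Type} (W : Set L) (col : L → Γ) (v : L) : Option Γ :=
  open Classical in if v ∈ W then some (col v) else none

/-- bad triangle: off the special nodes, three different colours (`none` = outside) -/
def BadTri {Γ β : Type} (W : Set L) (Q : β → Set L) (col : L → Γ) (t : L × Bool) : Prop :=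
  (∀ q, t.1 ∉ Q q ∧ t.1 + (1, 1) ∉ Q q ∧ tp t.1 t.2 ∉ Q q) ∧
  ecol W col t.1 ≠ ecol W col (t.1 + (1, 1)) ∧
  ecol W col t.1 ≠ ecol W col (tp t.1 t.2) ∧
  ecol W col (t.1 + (1, 1)) ≠ ecol W col (tp t.1 t.2)

/-- THE FINITE LEMMA of [7].  `W` = vertices of the node, `Q q` = special (massive / bad) nodes,
`col` = colour vector.  Output: regular classes `Rg` (monochromatic, off the special nodes) and
special classes `Cs q` (`Q q` plus adjacent monochromatic clusters); the fills of all of them are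
disjoint and cover `W`; number of regular classes `≤ 1 + 3 · #bad triangles`. -/
def FinLemma : Prop :=
  ∀ (Γ β : Type) (W : Set L) (Q : β → Set L) (col : L → Γ), Finite β → W.Finite → W.Nonempty →
    LConn W → LConn Wᶜ → (∀ q, (Q q).Nonempty ∧ LConn (Q q) ∧ Q q ⊆ W) →
    (∀ q q', q ≠ q' → Disjoint (Q q) (Q q')) →
    ∃ (Rg : Finset (Set L)) (Sp : Finset β) (Cs : β → Set L),
      (∀ C ∈ Rg, C.Nonempty ∧ LConn C ∧ C ⊆ W ∧ (∀ q, Disjoint C (Q q)) ∧
        ∀ a ∈ C, ∀ b ∈ C, col a = col b) ∧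
      (∀ q ∈ Sp, LConn (Cs q) ∧ Q q ⊆ Cs q ∧ Cs q ⊆ W ∧ (∀ q', q' ≠ q → Disjoint (Cs q) (Q q')) ∧
        ∀ a ∈ Cs q, a ∉ Q q → ∃ b ∈ W, (∀ q', b ∉ Q q') ∧ col b = col a ∧ ∃ c ∈ Q q, Adj b c) ∧
      -- pieces = fills: finite, connected, with connected complement, inside W
      (∀ X, (X ∈ Rg ∨ ∃ q ∈ Sp, X = Cs q) →
        (fill X).Finite ∧ LConn (fill X) ∧ LConn (fill X)ᶜ ∧ X ⊆ fill X ∧ fill X ⊆ W) ∧
      -- pairwise disjoint
      (∀ C ∈ Rg, ∀ C' ∈ Rg, C ≠ C' → Disjoint (fill C) (fill C')) ∧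
      (∀ q ∈ Sp, ∀ q' ∈ Sp, q ≠ q' → Disjoint (fill (Cs q)) (fill (Cs q'))) ∧
      (∀ C ∈ Rg, ∀ q ∈ Sp, Disjoint (fill C) (fill (Cs q))) ∧
      -- cover, and every node (inside a special node, or monochromatic off them) is in ONE piece
      (∀ R : Set L, R.Nonempty → LConn R → R ⊆ W →
        ((∃ q, R ⊆ Q q) ∨ ((∀ q, Disjoint R (Q q)) ∧ ∀ a ∈ R, ∀ b ∈ R, col a = col b)) →
        (∃ C ∈ Rg, R ⊆ fill C) ∨ ∃ q ∈ Sp, R ⊆ fill (Cs q)) ∧
      Rg.card ≤ 1 + 3 * Nat.card {t : L × Bool // BadTri W Q col t}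

end Vale.Agent.P116.Cl
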