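import Mathlib

/-!
P116, full Koebe, block [45]: the length-area inequality on level sets, in integrated form, without
coarea formula. `u` has the continuous upper gradient `ρ` on the open set `G`, `F` is holomorphic
off the finitely many pieces `P ∈ S` and maps a neighbourhood of `P` near a disk of radius `r P`.
Then the oscillation of `F` over all connected subsets of the level `u = s` inside `D` is at most
`A s`, where `∫ A ≤ 2 ∫ ρ |F'| + ∑ osc_P(u) * 2 r P + η`.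
-/

open Set Filter Topology Metric Bornology MeasureTheory
open scoped ENNReal

namespace Vale.Agent.P116.Cl

/-- `ρ` is a continuous upper gradient of `u` along the segments of `G` -/
structure UG (G : Set ℂ) (u ρ : ℂ → ℝ) : Prop where
  cont : ContinuousOn ρ G
  nn : ∀ z ∈ G, 0 ≤ ρ z
  le : ∀ x y, segment ℝ x y ⊆ G → ∀ M, (∀ z ∈ segment ℝ x y, ρ z ≤ M) → |u x - u y| ≤ M * ‖x - y‖

/-- the oscillation of a real function over a connected set is at most the sum of the lengths of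
the intervals belonging to the sets of a finite closed cover -/
lemma osc_le_sum {ι : Type*} (s : Finset ι) {A : ι → Set ℂ} (hA : ∀ i ∈ s, IsClosed (A i))
    {C Y : Set ℂ} (hC : IsPreconnected C) (hcov : C ⊆ ⋃ i ∈ s, A i)
    (hint : ∀ i ∈ s, ∀ j ∈ s, i ≠ j → ∀ z ∈ C, z ∈ A i → z ∈ A j → z ∈ Y)
    {f : ℂ → ℝ} {a b : ι → ℝ} (hab : ∀ i ∈ s, a i ≤ b i)
    (hf : ∀ i ∈ s, ∀ z ∈ C, z ∈ A i → z ∈ Y → a i ≤ f z ∧ f z ≤ b i)
    {p q : ℂ} (hp : p ∈ C) (hpY : p ∈ Y) (hq : q ∈ C) (hqY : q ∈ Y) :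
    ENNReal.ofReal (f q - f p) ≤ ∑ i ∈ s, ENNReal.ofReal (b i - a i) := by
  by_contra hcon
  push Not at hcon
  have h1 : volume (⋃ i ∈ s, Icc (a i) (b i)) ≤ ∑ i ∈ s, ENNReal.ofReal (b i - a i) := by
    refine (measure_biUnion_finset_le s _).trans (le_of_eq ?_)
    exact Finset.sum_congr rfl fun i _ => Real.volume_Icc
  have h2 : volume (⋃ i ∈ s, Icc (a i) (b i)) < volume (Icc (f p) (f q)) := by
    rw [Real.volume_Icc]
    exact h1.trans_lt hcon
  obtain ⟨τ, hτ, hτ'⟩ : ∃ τ ∈ Icc (f p) (f q), τ ∉ ⋃ i ∈ s, Icc (a i) (b i) := by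
    by_contra h
    push Not at h
    exact absurd (measure_mono (μ := volume) h) (not_le.2 h2)
  have hτ2 : ∀ i ∈ s, τ < a i ∨ b i < τ := by
    intro i hi
    by_contra h
    push Not at h
    exact hτ' (mem_biUnion hi ⟨h.1, h.2⟩)
  classical
  have hclB : IsClosed (⋃ i ∈ s.filter (fun i => b i < τ), A i) :=
    isClosed_biUnion_finset fun i hi => hA i (Finset.mem_filter.1 hi).1
  have hclT : IsClosed (⋃ i ∈ s.filter (fun i => τ < a i), A i) :=
    isClosed_biUnion_finset fun i hi => hA i (Finset.mem_filter.1 hi).1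
  have hcov2 : C ⊆ (⋃ i ∈ s.filter (fun i => b i < τ), A i) ∪
      (⋃ i ∈ s.filter (fun i => τ < a i), A i) := by
    intro z hz
    obtain ⟨i, hi, hzi⟩ := mem_iUnion₂.1 (hcov hz)
    rcases hτ2 i hi with h | h
    · exact Or.inr (mem_biUnion (Finset.mem_filter.2 ⟨hi, h⟩) hzi)
    · exact Or.inl (mem_biUnion (Finset.mem_filter.2 ⟨hi, h⟩) hzi)
  have hpB : (C ∩ ⋃ i ∈ s.filter (fun i => b i < τ), A i).Nonempty := by
    obtain ⟨i, hi, hzi⟩ := mem_iUnion₂.1 (hcov hp)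
    refine ⟨p, hp, mem_biUnion (Finset.mem_filter.2 ⟨hi, ?_⟩) hzi⟩
    have h := hf i hi p hp hzi hpY
    rcases hτ2 i hi with h' | h'
    · exact absurd hτ.1 (by linarith [h.1])
    · exact h'
  have hqT : (C ∩ ⋃ i ∈ s.filter (fun i => τ < a i), A i).Nonempty := by
    obtain ⟨i, hi, hzi⟩ := mem_iUnion₂.1 (hcov hq)
    refine ⟨q, hq, mem_biUnion (Finset.mem_filter.2 ⟨hi, ?_⟩) hzi⟩
    have h := hf i hi q hq hzi hqY
    rcases hτ2 i hi with h' | h'
    · exact h'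
    · exact absurd hτ.2 (by linarith [h.2])
  obtain ⟨z, hz, hzB, hzT⟩ := isPreconnected_closed_iff.1 hC _ _ hclB hclT hcov2 hpB hqT
  obtain ⟨i, hi, hzi⟩ := mem_iUnion₂.1 hzB
  obtain ⟨j, hj, hzj⟩ := mem_iUnion₂.1 hzT
  obtain ⟨hi, hi'⟩ := Finset.mem_filter.1 hi
  obtain ⟨hj, hj'⟩ := Finset.mem_filter.1 hj
  by_cases hij : i = j
  · subst hij
    exact absurd (hab i hi) (by linarith)
  · have hzY := hint i hi j hj hij z hz hzi hzj
    have h3 := hf i hi z hz hzi hzY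
    have h4 := hf j hj z hz hzj hzY
    linarith [h3.2, h4.1]

lemma exists_Icc {T : Set ℂ} (hT : T.Nonempty) {f : ℂ → ℝ} {L : ℝ}
    (h : ∀ x ∈ T, ∀ y ∈ T, |f x - f y| ≤ L) :
    ∃ a b : ℝ, a ≤ b ∧ b - a ≤ L ∧ ∀ x ∈ T, a ≤ f x ∧ f x ≤ b := by
  obtain ⟨x₀, hx₀⟩ := hT
  have hne : (f '' T).Nonempty := ⟨_, x₀, hx₀, rfl⟩
  have hb1 : BddAbove (f '' T) := by
    refine ⟨f x₀ + L, ?_⟩
    rintro _ ⟨x, hx, rfl⟩
    have := abs_le.1 (h x hx x₀ hx₀)
    linarith [this.2]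
  have hb2 : BddBelow (f '' T) := by
    refine ⟨f x₀ - L, ?_⟩
    rintro _ ⟨x, hx, rfl⟩
    have := abs_le.1 (h x hx x₀ hx₀)
    linarith [this.1]
  refine ⟨sInf (f '' T), sSup (f '' T), Real.sInf_le_sSup _ hb2 hb1, ?_, fun x hx =>
    ⟨csInf_le hb2 ⟨x, hx, rfl⟩, le_csSup hb1 ⟨x, hx, rfl⟩⟩⟩
  have h1 : sSup (f '' T) ≤ sInf (f '' T) + L := by
    refine csSup_le hne ?_
    rintro _ ⟨x, hx, rfl⟩
    have h2 : f x - L ≤ sInf (f '' T) := by
      refine le_csInf hne ?_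
      rintro _ ⟨y, hy, rfl⟩
      have := abs_le.1 (h x hx y hy)
      linarith [this.2]
    linarith
  linarith

lemma UG.continuousOn {G : Set ℂ} (hG : IsOpen G) {u ρ : ℂ → ℝ} (h : UG G u ρ) :
    ContinuousOn u G := by
  intro x hx
  have h1 : ContinuousAt ρ x := h.cont.continuousAt (hG.mem_nhds hx)
  have h2 : ∀ᶠ y in 𝓝 x, ρ y < ρ x + 1 := h1.eventually_lt continuousAt_const (by linarith)
  obtain ⟨ε, hε, hball⟩ := Metric.eventually_nhds_iff_ball.1 (h2.and (hG.mem_nhds hx))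
  refine ContinuousAt.continuousWithinAt ?_
  rw [ContinuousAt, tendsto_iff_dist_tendsto_zero]
  have h3 : Tendsto (fun y => (ρ x + 1) * ‖y - x‖) (𝓝 x) (𝓝 0) := by
    have : Tendsto (fun y => (ρ x + 1) * ‖y - x‖) (𝓝 x) (𝓝 ((ρ x + 1) * ‖x - x‖)) :=
      (continuous_const.mul (continuous_id.sub continuous_const).norm).tendsto x
    simpa using this
  refine squeeze_zero' (Eventually.of_forall fun _ => dist_nonneg) ?_ h3
  filter_upwards [Metric.ball_mem_nhds x hε] with y hy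
  have hseg : segment ℝ y x ⊆ ball x ε := (convex_ball x ε).segment_subset hy (mem_ball_self hε)
  rw [Real.dist_eq]
  exact h.le y x (fun z hz => (hball z (hseg hz)).2) _ fun z hz => (hball z (hseg hz)).1.le

/-! ### cells -/

/-- closed cell of the grid of mesh `d` -/
def cell (d : ℝ) (m : ℤ × ℤ) : Set ℂ :=
  {z | m.1 * d ≤ z.re ∧ z.re ≤ (m.1 + 1) * d ∧ m.2 * d ≤ z.im ∧ z.im ≤ (m.2 + 1) * d}

/-- half open cell -/
def cellh (d : ℝ) (m : ℤ × ℤ) : Set ℂ :=
  Ico ((m.1 : ℝ) * d) ((m.1 + 1) * d) ×ℂ Ico ((m.2 : ℝ) * d) ((m.2 + 1) * d)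

lemma cellh_subset (d : ℝ) (m : ℤ × ℤ) : cellh d m ⊆ cell d m := by
  intro z hz
  have h := Complex.mem_reProdIm.1 hz
  exact ⟨h.1.1, h.1.2.le, h.2.1, h.2.2.le⟩

lemma isClosed_cell (d : ℝ) (m : ℤ × ℤ) : IsClosed (cell d m) := by
  have e : cell d m = Icc ((m.1 : ℝ) * d) ((m.1 + 1) * d) ×ℂ Icc ((m.2 : ℝ) * d) ((m.2 + 1) * d) := by
    ext z
    rw [Complex.mem_reProdIm]
    simp only [cell, mem_ofPred_eq, mem_Icc]
    tauto
  rw [e]
  exact isClosed_Icc.reProdIm isClosed_Icc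

lemma convex_cell (d : ℝ) (m : ℤ × ℤ) : Convex ℝ (cell d m) := by
  intro x hx y hy a b ha hb hab
  obtain ⟨h1, h2, h3, h4⟩ := hx
  obtain ⟨k1, k2, k3, k4⟩ := hy
  have hb' : b = 1 - a := by linarith
  subst hb'
  refine ⟨?_, ?_, ?_, ?_⟩ <;>
    simp only [Complex.add_re, Complex.add_im, Complex.real_smul, Complex.mul_re, Complex.mul_im,
      Complex.ofReal_re, Complex.ofReal_im, zero_mul, sub_zero, add_zero] <;> nlinarith

lemma cell_dist {d : ℝ} (hd : 0 < d) {m : ℤ × ℤ} {x y : ℂ} (hx : x ∈ cell d m) (hy : y ∈ cell d m) :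
    ‖x - y‖ ≤ √2 * d := by
  obtain ⟨h1, h2, h3, h4⟩ := hx
  obtain ⟨k1, k2, k3, k4⟩ := hy
  have e : ‖x - y‖ ^ 2 ≤ (√2 * d) ^ 2 := by
    rw [← Complex.normSq_eq_norm_sq, Complex.normSq_apply, mul_pow, Real.sq_sqrt (by norm_num)]
    have h5 : |(x - y).re| ≤ d := by rw [Complex.sub_re, abs_le]; constructor <;> nlinarith
    have h6 : |(x - y).im| ≤ d := by rw [Complex.sub_im, abs_le]; constructor <;> nlinarith
    have h7 : (x - y).re * (x - y).re ≤ d ^ 2 := by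
      rw [← sq, ← sq_abs]; exact pow_le_pow_left₀ (abs_nonneg _) h5 2
    have h8 : (x - y).im * (x - y).im ≤ d ^ 2 := by
      rw [← sq, ← sq_abs]; exact pow_le_pow_left₀ (abs_nonneg _) h6 2
    linarith
  exact (sq_le_sq₀ (norm_nonneg _) (by positivity)).1 e

lemma cellh_eq (d : ℝ) (m : ℤ × ℤ) : cellh d m = Complex.measurableEquivRealProd ⁻¹'
    (Ico ((m.1 : ℝ) * d) ((m.1 + 1) * d) ×ˢ Ico ((m.2 : ℝ) * d) ((m.2 + 1) * d)) := by
  ext z
  rfl

lemma measurableSet_cellh (d : ℝ) (m : ℤ × ℤ) : MeasurableSet (cellh d m) := by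
  rw [cellh_eq]
  exact Complex.measurableEquivRealProd.measurable (measurableSet_Ico.prod measurableSet_Ico)

lemma volume_cellh {d : ℝ} (hd : 0 < d) (m : ℤ × ℤ) : volume (cellh d m) = ENNReal.ofReal (d ^ 2) := by
  rw [cellh_eq, Complex.volume_preserving_equiv_real_prod.measure_preimage
    (measurableSet_Ico.prod measurableSet_Ico).nullMeasurableSet, Measure.volume_eq_prod,
    Measure.prod_prod, Real.volume_Ico, Real.volume_Ico, ← ENNReal.ofReal_mul (by nlinarith)]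
  congr 1
  ring

lemma cellh_disj {d : ℝ} (hd : 0 < d) {m n : ℤ × ℤ} (hmn : m ≠ n) :
    Disjoint (cellh d m) (cellh d n) := by
  rw [Set.disjoint_left]
  intro z hz hz'
  have h := Complex.mem_reProdIm.1 hz
  have h' := Complex.mem_reProdIm.1 hz'
  apply hmn
  have key : ∀ (i j : ℤ) (x : ℝ), x ∈ Ico ((i : ℝ) * d) ((i + 1) * d) →
      x ∈ Ico ((j : ℝ) * d) ((j + 1) * d) → i = j := by
    intro i j x hi hj
    have h1 : (i : ℝ) < j + 1 := by
      have := lt_of_le_of_lt hi.1 hj.2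
      exact lt_of_mul_lt_mul_right this hd.le
    have h2 : (j : ℝ) < i + 1 := by
      have := lt_of_le_of_lt hj.1 hi.2
      exact lt_of_mul_lt_mul_right this hd.le
    have h3 : i < j + 1 := by exact_mod_cast h1
    have h4 : j < i + 1 := by exact_mod_cast h2
    omega
  exact Prod.ext (key _ _ _ h.1 h'.1) (key _ _ _ h.2 h'.2)

lemma exists_cell {d : ℝ} (hd : 0 < d) (z : ℂ) : ∃ m : ℤ × ℤ, z ∈ cellh d m := by
  refine ⟨(⌊z.re / d⌋, ⌊z.im / d⌋), ?_⟩
  rw [cellh, Complex.mem_reProdIm]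
  refine ⟨⟨?_, ?_⟩, ⟨?_, ?_⟩⟩
  · exact (le_div_iff₀ hd).1 (Int.floor_le _)
  · exact (div_lt_iff₀ hd).1 (Int.lt_floor_add_one _)
  · exact (le_div_iff₀ hd).1 (Int.floor_le _)
  · exact (div_lt_iff₀ hd).1 (Int.lt_floor_add_one _)

lemma finite_cells {d : ℝ} (hd : 0 < d) {B : Set ℂ} (hB : IsBounded B) :
    {m : ℤ × ℤ | (cell d m ∩ B).Nonempty}.Finite := by
  obtain ⟨R, hR⟩ := hB.subset_closedBall 0
  refine ((Set.finite_Icc (-⌈R / d⌉ - 1) (⌈R / d⌉ + 1)).prod
    (Set.finite_Icc (-⌈R / d⌉ - 1) (⌈R / d⌉ + 1))).subset ?_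
  rintro ⟨i, j⟩ ⟨z, ⟨h1, h2, h3, h4⟩, hzB⟩
  have hz := hR hzB
  rw [mem_closedBall_zero_iff] at hz
  have hre := abs_le.1 ((Complex.abs_re_le_norm z).trans hz)
  have him := abs_le.1 ((Complex.abs_im_le_norm z).trans hz)
  have key : ∀ (i : ℤ) (x : ℝ), (i : ℝ) * d ≤ x → x ≤ (i + 1) * d → -R ≤ x → x ≤ R →
      i ∈ Set.Icc (-⌈R / d⌉ - 1) (⌈R / d⌉ + 1) := by
    intro i x g1 g2 g3 g4
    have g5 : (i : ℝ) ≤ R / d := by rw [le_div_iff₀ hd]; linarith
    have g6 : -(R / d) ≤ i + 1 := by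
      rw [← neg_div, div_le_iff₀ hd]; linarith
    have g7 := Int.le_ceil (R / d)
    constructor
    · have : (-⌈R / d⌉ : ℝ) ≤ i + 1 := by linarith
      have : (-⌈R / d⌉ : ℤ) ≤ i + 1 := by exact_mod_cast this
      omega
    · have : (i : ℝ) ≤ ⌈R / d⌉ := by linarith
      have : i ≤ ⌈R / d⌉ := by exact_mod_cast this
      omega
  exact ⟨key i z.re h1 h2 hre.1 hre.2, key j z.im h3 h4 him.1 him.2⟩

/-- Riemann sums over the cells which meet the compact set `C₀` -/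
lemma exists_cells {C₀ O₀ : Set ℂ} (hC : IsCompact C₀) (hO : IsOpen O₀) (hCO : C₀ ⊆ O₀)
    {f g : ℂ → ℝ} (hf : ContinuousOn f O₀) (hg : ContinuousOn g O₀) (hf0 : ∀ z ∈ O₀, 0 ≤ f z)
    (hg0 : ∀ z ∈ O₀, 0 ≤ g z) {ε : ℝ} (hε : 0 < ε) {δ : ℝ} (hδ : 0 < δ) :
    ∃ d > 0, √2 * d ≤ δ ∧ ∃ (M : Finset (ℤ × ℤ)) (a b : ℤ × ℤ → ℝ), C₀ ⊆ ⋃ m ∈ M, cell d m ∧
      (∀ m ∈ M, 0 ≤ a m ∧ 0 ≤ b m ∧ cell d m ⊆ O₀ ∧ (∀ z ∈ cell d m, f z ≤ a m ∧ g z ≤ b m)) ∧
      ∑ m ∈ M, ENNReal.ofReal (d ^ 2 * (a m * b m)) ≤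
        (∫⁻ z in O₀, ENNReal.ofReal (f z * g z)) + ENNReal.ofReal ε := by
  obtain ⟨δ₁, hδ₁, hK1⟩ := hC.exists_cthickening_subset_open hO hCO
  set K₁ := cthickening δ₁ C₀ with hK₁
  have hK₁c : IsCompact K₁ := hC.cthickening
  obtain ⟨Bf, hBf⟩ := hK₁c.exists_bound_of_continuousOn (hf.mono hK1)
  obtain ⟨Bg, hBg⟩ := hK₁c.exists_bound_of_continuousOn (hg.mono hK1)
  set B : ℝ := max (max Bf Bg) 0 with hB
  have hB0 : 0 ≤ B := le_max_right _ _
  have hfB : ∀ z ∈ K₁, f z ≤ B := fun z hz =>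
    (le_abs_self _).trans ((hBf z hz).trans ((le_max_left _ _).trans (le_max_left _ _)))
  have hgB : ∀ z ∈ K₁, g z ≤ B := fun z hz =>
    (le_abs_self _).trans ((hBg z hz).trans ((le_max_right _ _).trans (le_max_left _ _)))
  set V : ℝ := (volume K₁).toReal with hV
  have hV0 : 0 ≤ V := ENNReal.toReal_nonneg
  set ε' : ℝ := min 1 (ε / ((4 * B + 4) * (V + 1))) with hε'
  have hε'0 : 0 < ε' := lt_min one_pos (by positivity)
  have hε'1 : ε' ≤ 1 := min_le_left _ _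
  have hε'2 : ε' * ((4 * B + 4) * (V + 1)) ≤ ε := by
    rw [← le_div_iff₀ (by positivity)]
    exact min_le_right _ _
  obtain ⟨δ₂, hδ₂, hf2⟩ := Metric.uniformContinuousOn_iff.1
    (hK₁c.uniformContinuousOn_of_continuous (hf.mono hK1)) ε' hε'0
  obtain ⟨δ₃, hδ₃, hg2⟩ := Metric.uniformContinuousOn_iff.1
    (hK₁c.uniformContinuousOn_of_continuous (hg.mono hK1)) ε' hε'0
  set d : ℝ := min (min δ₁ δ) (min δ₂ δ₃) / 2 with hd
  have hd0 : 0 < d := by positivity
  have h2 : √2 * d < 2 * d := by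
    have : √2 < 2 := by
      rw [Real.sqrt_lt' (by norm_num)]
      norm_num
    exact mul_lt_mul_of_pos_right this hd0
  have h2d : 2 * d = min (min δ₁ δ) (min δ₂ δ₃) := by rw [hd]; ring
  have hd1 : √2 * d < δ₁ := by
    refine h2.trans_le (h2d.le.trans ((min_le_left _ _).trans (min_le_left _ _)))
  have hdδ : √2 * d < δ := by
    refine h2.trans_le (h2d.le.trans ((min_le_left _ _).trans (min_le_right _ _)))
  have hd2 : √2 * d < δ₂ := by
    refine h2.trans_le (h2d.le.trans ((min_le_right _ _).trans (min_le_left _ _)))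
  have hd3 : √2 * d < δ₃ := by
    refine h2.trans_le (h2d.le.trans ((min_le_right _ _).trans (min_le_right _ _)))
  have hfin := finite_cells hd0 hC.isBounded
  set zc : ℤ × ℤ → ℂ := fun m => ⟨m.1 * d, m.2 * d⟩ with hzc
  have hzcm : ∀ m, zc m ∈ cell d m := by
    intro m
    refine ⟨le_rfl, ?_, le_rfl, ?_⟩
    · change (m.1 : ℝ) * d ≤ (m.1 + 1) * d
      nlinarith
    · change (m.2 : ℝ) * d ≤ (m.2 + 1) * d
      nlinarith
  have hcellK : ∀ m ∈ hfin.toFinset, cell d m ⊆ K₁ := by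
    intro m hm z hz
    obtain ⟨w, hw, hwC⟩ := (hfin.mem_toFinset.1 hm)
    refine mem_cthickening_of_dist_le z w _ _ hwC ?_
    rw [dist_eq_norm]
    exact (cell_dist hd0 hz hw).trans hd1.le
  have hfa : ∀ m ∈ hfin.toFinset, ∀ z ∈ cell d m, |f z - f (zc m)| < ε' ∧ |g z - g (zc m)| < ε' := by
    intro m hm z hz
    have h3 : dist z (zc m) ≤ √2 * d := by
      rw [dist_eq_norm]
      exact cell_dist hd0 hz (hzcm m)
    exact ⟨hf2 z (hcellK m hm hz) _ (hcellK m hm (hzcm m)) (h3.trans_lt hd2),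
      hg2 z (hcellK m hm hz) _ (hcellK m hm (hzcm m)) (h3.trans_lt hd3)⟩
  refine ⟨d, hd0, hdδ.le, hfin.toFinset, fun m => f (zc m) + ε', fun m => g (zc m) + ε', ?_, ?_, ?_⟩
  · intro z hz
    obtain ⟨m, hm⟩ := exists_cell hd0 z
    exact mem_biUnion (hfin.mem_toFinset.2 ⟨z, cellh_subset d m hm, hz⟩) (cellh_subset d m hm)
  · intro m hm
    have h3 := hK1 (hcellK m hm (hzcm m))
    refine ⟨by linarith [hf0 _ h3], by linarith [hg0 _ h3], (hcellK m hm).trans hK1, ?_⟩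
    intro z hz
    have h4 := hfa m hm z hz
    exact ⟨by linarith [(abs_lt.1 h4.1).2], by linarith [(abs_lt.1 h4.2).2]⟩
  · have hstep : ∀ m ∈ hfin.toFinset, ENNReal.ofReal (d ^ 2 * ((f (zc m) + ε') * (g (zc m) + ε'))) ≤
        ∫⁻ z in cellh d m, (ENNReal.ofReal (f z * g z) + ENNReal.ofReal (ε / (V + 1))) := by
      intro m hm
      have h3 : ENNReal.ofReal (d ^ 2 * ((f (zc m) + ε') * (g (zc m) + ε'))) =
          ∫⁻ _ in cellh d m, ENNReal.ofReal ((f (zc m) + ε') * (g (zc m) + ε')) := by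
        rw [setLIntegral_const, volume_cellh hd0, mul_comm (d ^ 2), ENNReal.ofReal_mul']
        positivity
      rw [h3]
      refine setLIntegral_mono' (measurableSet_cellh d m) fun z hz => ?_
      have hzc' := cellh_subset d m hz
      have h4 := hfa m hm z hzc'
      have h5 := hcellK m hm hzc'
      have h6 := hf0 z (hK1 h5)
      have h7 := hg0 z (hK1 h5)
      have h8 := hfB z h5
      have h9 := hgB z h5
      rw [← ENNReal.ofReal_add (by positivity) (by positivity)]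
      apply ENNReal.ofReal_le_ofReal
      have h10 : f (zc m) + ε' ≤ f z + 2 * ε' := by linarith [(abs_lt.1 h4.1).1]
      have h11 : g (zc m) + ε' ≤ g z + 2 * ε' := by linarith [(abs_lt.1 h4.2).1]
      have h12 : 0 ≤ f (zc m) + ε' := by linarith [hf0 _ (hK1 (hcellK m hm (hzcm m)))]
      have h13 : (f (zc m) + ε') * (g (zc m) + ε') ≤ (f z + 2 * ε') * (g z + 2 * ε') :=
        mul_le_mul h10 h11 (by linarith [hg0 _ (hK1 (hcellK m hm (hzcm m)))]) (by linarith)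
      have h14 : (f z + 2 * ε') * (g z + 2 * ε') ≤ f z * g z + ε' * (4 * B + 4) := by
        nlinarith
      have h15 : ε' * (4 * B + 4) ≤ ε / (V + 1) := by
        rw [le_div_iff₀ (by positivity)]
        linarith
      linarith
    calc ∑ m ∈ hfin.toFinset, ENNReal.ofReal (d ^ 2 * ((f (zc m) + ε') * (g (zc m) + ε')))
        ≤ ∑ m ∈ hfin.toFinset,
          ∫⁻ z in cellh d m, (ENNReal.ofReal (f z * g z) + ENNReal.ofReal (ε / (V + 1))) :=
          Finset.sum_le_sum hstep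
      _ = ∫⁻ z in ⋃ m ∈ hfin.toFinset, cellh d m,
            (ENNReal.ofReal (f z * g z) + ENNReal.ofReal (ε / (V + 1))) := by
          rw [lintegral_biUnion_finset]
          · intro m _ n _ hmn
            exact cellh_disj hd0 hmn
          · intro m _
            exact measurableSet_cellh d m
      _ ≤ ∫⁻ z in K₁, (ENNReal.ofReal (f z * g z) + ENNReal.ofReal (ε / (V + 1))) := by
          refine lintegral_mono_set ?_
          exact iUnion₂_subset fun m hm => (cellh_subset d m).trans (hcellK m hm)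
      _ = (∫⁻ z in K₁, ENNReal.ofReal (f z * g z)) + ENNReal.ofReal (ε / (V + 1)) * volume K₁ := by
          rw [lintegral_add_right _ measurable_const, setLIntegral_const]
      _ ≤ (∫⁻ z in O₀, ENNReal.ofReal (f z * g z)) + ENNReal.ofReal ε := by
          refine add_le_add (lintegral_mono_set hK1) ?_
          have h3 : volume K₁ = ENNReal.ofReal V := (ENNReal.ofReal_toReal hK₁c.measure_ne_top).symm
          rw [h3, ← ENNReal.ofReal_mul (by positivity)]
          apply ENNReal.ofReal_le_ofReal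
          rw [div_mul_eq_mul_div, div_le_iff₀ (by positivity)]
          nlinarith

/-! ### collars of the pieces -/

lemma ev_collar {P V : Set ℂ} (hP : IsCompact P) (hV : ∀ x ∈ P, V ∈ 𝓝 x) :
    ∀ᶠ δ in 𝓝[>] (0 : ℝ), cthickening δ P ⊆ V := by
  obtain ⟨δ₀, hδ₀, h⟩ := hP.exists_cthickening_subset_open (isOpen_interior (s := V))
    (fun x hx => mem_interior_iff_mem_nhds.2 (hV x hx))
  filter_upwards [Ioo_mem_nhdsGT hδ₀] with δ hδ
  exact (cthickening_mono hδ.2.le P).trans (h.trans interior_subset)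

lemma ev_collar_F {S : Set (Set ℂ)} {F : ℂ → ℂ} {c : Set ℂ → ℂ} {r : Set ℂ → ℝ} {P : Set ℂ}
    (hP : IsCompact P) (hr : 0 ≤ r P)
    (hlim : ∀ x ∈ P,
      Tendsto (fun z => infDist (F z) (closedBall (c P) (r P))) (𝓝[(⋃₀ S)ᶜ] x) (𝓝 0))
    {ε : ℝ} (hε : 0 < ε) :
    ∀ᶠ δ in 𝓝[>] (0 : ℝ), cthickening δ P ⊆ {z | z ∉ ⋃₀ S → ‖F z - c P‖ ≤ r P + ε} := by
  refine ev_collar hP fun x hx => ?_
  have h1 := (hlim x hx).eventually_lt_const hε
  rw [eventually_nhdsWithin_iff] at h1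
  filter_upwards [h1] with z hz hzS
  obtain ⟨y, hy, hy'⟩ := (infDist_lt_iff (nonempty_closedBall.2 hr)).1 (hz hzS)
  rw [mem_closedBall, dist_eq_norm] at hy
  rw [dist_eq_norm] at hy'
  calc ‖F z - c P‖ = ‖(F z - y) + (y - c P)‖ := by congr 1; ring
    _ ≤ ‖F z - y‖ + ‖y - c P‖ := norm_add_le _ _
    _ ≤ r P + ε := by linarith

lemma ev_collar_u {G : Set ℂ} (hG : IsOpen G) {u : ℂ → ℝ} (hu : ContinuousOn u G) {P : Set ℂ}
    (hP : IsCompact P) (hfr : frontier P ⊆ G) {lo hi : ℝ}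
    (hlo : ∀ z ∈ frontier P, lo ≤ u z ∧ u z ≤ hi) {ε : ℝ} (hε : 0 < ε) :
    ∀ᶠ δ in 𝓝[>] (0 : ℝ), cthickening δ P ⊆
      {z | z ∉ P → z ∈ G ∧ lo - ε ≤ u z ∧ u z ≤ hi + ε} := by
  refine ev_collar hP fun x hx => ?_
  by_cases hxi : x ∈ interior P
  · filter_upwards [mem_interior_iff_mem_nhds.1 hxi] with z hz hz'
    exact absurd hz hz'
  · have hxf : x ∈ frontier P := ⟨subset_closure hx, hxi⟩
    have h1 := hu.continuousAt (hG.mem_nhds (hfr hxf))
    have h2 := hlo x hxf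
    filter_upwards [h1.eventually_const_lt (show lo - ε < u x by linarith),
      h1.eventually_lt_const (show u x < hi + ε by linarith), hG.mem_nhds (hfr hxf)]
      with z h3 h4 h5 _
    exact ⟨h5, h3.le, h4.le⟩

/-- **[45] at one structure, list form.** -/
theorem lev_cells {S : Set (Set ℂ)} (hS : S.Finite) (hcpt : ∀ P ∈ S, IsCompact P)
    (hdisj : ∀ P ∈ S, ∀ Q ∈ S, P ≠ Q → Disjoint P Q) {F : ℂ → ℂ}
    (hF : DifferentiableOn ℂ F (⋃₀ S)ᶜ) {c : Set ℂ → ℂ} {r : Set ℂ → ℝ} (hr : ∀ P ∈ S, 0 ≤ r P)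
    (hlim : ∀ P ∈ S, ∀ x ∈ P,
      Tendsto (fun z => infDist (F z) (closedBall (c P) (r P))) (𝓝[(⋃₀ S)ᶜ] x) (𝓝 0))
    {G : Set ℂ} (hG : IsOpen G) (hfr : ∀ P ∈ S, frontier P ⊆ G) {u ρ : ℂ → ℝ} (hu : UG G u ρ)
    {lo hi : Set ℂ → ℝ} (hlo : ∀ P ∈ S, ∀ z ∈ frontier P, lo P ≤ u z ∧ u z ≤ hi P)
    {D O : Set ℂ} (hD : IsCompact D) (hO : IsOpen O) (hDO : D ⊆ O) (hDG : D ⊆ G ∪ ⋃₀ S)
    {η δ : ℝ} (hη : 0 < η) (hδ : 0 < δ) :
    ∃ (M : Finset (ℤ × ℤ)) (A : ℤ × ℤ → Set ℂ) (a b l : ℤ × ℤ → ℝ) (δ' : ℝ), 0 < δ' ∧ δ' ≤ δ ∧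
      (∀ m ∈ M, IsClosed (A m) ∧ a m ≤ b m ∧ 0 ≤ l m ∧ A m ⊆ O ∩ G ∩ (⋃₀ S)ᶜ ∧
        (∀ x ∈ A m, ∀ y ∈ A m, dist x y ≤ δ) ∧ (∀ z ∈ A m, a m ≤ u z ∧ u z ≤ b m)) ∧
      ∑ m ∈ M, ENNReal.ofReal ((b m - a m) * l m) ≤
        2 * (∫⁻ z in O ∩ G ∩ (⋃₀ S)ᶜ, ENNReal.ofReal (ρ z * ‖deriv F z‖)) + ENNReal.ofReal η ∧
      (∀ P ∈ S, ¬ (P ∩ D).Nonempty → ¬ (cthickening δ' P ∩ D).Nonempty) ∧
      ∀ (s : ℝ) (C' : Set ℂ), IsPreconnected C' → C' ⊆ D → (∀ z ∈ C', z ∉ ⋃₀ S → u z = s) →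
        ∀ p ∈ C', p ∉ ⋃₀ S →
        (∀ P ∈ S, (cthickening δ' P ∩ C').Nonempty → lo P - η ≤ s ∧ s ≤ hi P + η) ∧
        ∀ q ∈ C', q ∉ ⋃₀ S → ∀ (M' : Finset (ℤ × ℤ)) (T' : Finset (Set ℂ)), M' ⊆ M →
          (∀ m ∈ M, (A m ∩ C').Nonempty → m ∈ M') → (∀ P ∈ T', P ∈ S) →
          (∀ P ∈ S, (cthickening δ' P ∩ C').Nonempty → P ∈ T') →
          |(F p).re - (F q).re| ≤ ∑ m ∈ M', l m + ∑ P ∈ T', 2 * (r P + η) ∧
          |(F p).im - (F q).im| ≤ ∑ m ∈ M', l m + ∑ P ∈ T', 2 * (r P + η) := by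
  have hU : IsCompact (⋃₀ S) := hS.isCompact_sUnion hcpt
  have hUo : IsOpen (⋃₀ S)ᶜ := hU.isClosed.isOpen_compl
  have hev : ∀ᶠ δ' in 𝓝[>] (0 : ℝ), (∀ P ∈ S, cthickening δ' P ⊆
      {z | z ∉ ⋃₀ S → ‖F z - c P‖ ≤ r P + η}) ∧ (∀ P ∈ S, cthickening δ' P ⊆
      {z | z ∉ P → z ∈ G ∧ lo P - η ≤ u z ∧ u z ≤ hi P + η}) ∧
      (∀ P ∈ S, ∀ Q ∈ S, P ≠ Q → Disjoint (cthickening δ' P) (cthickening δ' Q)) ∧
      (∀ P ∈ S, ¬ (P ∩ D).Nonempty → ¬ (cthickening δ' P ∩ D).Nonempty) ∧ 0 < δ' ∧ δ' ≤ δ := by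
    refine Eventually.and ?_ (Eventually.and ?_ (Eventually.and ?_ (Eventually.and ?_ ?_)))
    · exact (eventually_all_finite hS).2 fun P hP =>
        ev_collar_F (hcpt P hP) (hr P hP) (hlim P hP) hη
    · exact (eventually_all_finite hS).2 fun P hP =>
        ev_collar_u hG (hu.continuousOn hG) (hcpt P hP) (hfr P hP) (hlo P hP) hη
    · refine (eventually_all_finite hS).2 fun P hP => (eventually_all_finite hS).2 fun Q hQ => ?_
      by_cases h : P = Q
      · exact Eventually.of_forall fun δ' hne => absurd h hne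
      · obtain ⟨δ₀, hδ₀, h0⟩ := (hdisj P hP Q hQ h).exists_cthickenings (hcpt P hP)
          (hcpt Q hQ).isClosed
        filter_upwards [Ioo_mem_nhdsGT hδ₀] with δ' hδ' _
        exact h0.mono (cthickening_mono hδ'.2.le P) (cthickening_mono hδ'.2.le Q)
    · refine (eventually_all_finite hS).2 fun P hP => ?_
      by_cases h : (P ∩ D).Nonempty
      · exact Eventually.of_forall fun δ' hne => absurd h hne
      · have h1 : ∀ x ∈ P, Dᶜ ∈ 𝓝 x := fun x hx =>
          hD.isClosed.isOpen_compl.mem_nhds fun hxD => h ⟨x, hx, hxD⟩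
        filter_upwards [ev_collar (hcpt P hP) h1] with δ' hδ' _ hne
        obtain ⟨x, hx, hx'⟩ := hne
        exact hδ' hx hx'
    · filter_upwards [Ioc_mem_nhdsGT hδ] with δ' hδ'
      exact hδ'
  obtain ⟨δ', h1, h2, h3, h4, hδ'0, hδ'⟩ := hev.exists
  set C₀ : Set ℂ := D \ ⋃ P ∈ S, thickening δ' P with hC₀
  have hC₀c : IsCompact C₀ :=
    hD.diff (isOpen_biUnion fun P _ => isOpen_thickening)
  have hOo : IsOpen (O ∩ G ∩ (⋃₀ S)ᶜ) := (hO.inter hG).inter hUo
  have hCO : C₀ ⊆ O ∩ G ∩ (⋃₀ S)ᶜ := by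
    rintro z ⟨hz, hz'⟩
    have hzU : z ∉ ⋃₀ S := by
      rintro ⟨P, hP, hzP⟩
      exact hz' (mem_biUnion hP (self_subset_thickening hδ'0 P hzP))
    refine ⟨⟨hDO hz, ?_⟩, hzU⟩
    rcases hDG hz with h | h
    · exact h
    · exact absurd h hzU
  have hdF : ContinuousOn (fun z => ‖deriv F z‖) (O ∩ G ∩ (⋃₀ S)ᶜ) :=
    ((hF.deriv hUo).continuousOn.norm).mono inter_subset_right
  obtain ⟨d, hd0, hdδ, M, am, bm, hcov, hM, hsum⟩ := exists_cells hC₀c hOo hCO
    (hu.cont.mono fun z hz => hz.1.2) hdF (fun z hz => hu.nn z hz.1.2)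
    (fun z _ => norm_nonneg _) (half_pos hη) hδ
  have hcne : ∀ m, (cell d m).Nonempty := fun m => ⟨⟨m.1 * d, m.2 * d⟩, by
    refine ⟨le_rfl, ?_, le_rfl, ?_⟩
    · change (m.1 : ℝ) * d ≤ (m.1 + 1) * d
      nlinarith
    · change (m.2 : ℝ) * d ≤ (m.2 + 1) * d
      nlinarith⟩
  have hseg : ∀ m ∈ M, ∀ x ∈ cell d m, ∀ y ∈ cell d m, segment ℝ x y ⊆ cell d m :=
    fun m _ x hx y hy => (convex_cell d m).segment_subset hx hy
  have hI : ∀ m, ∃ a b : ℝ, m ∈ M → a ≤ b ∧ b - a ≤ am m * (√2 * d) ∧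
      ∀ x ∈ cell d m, a ≤ u x ∧ u x ≤ b := by
    intro m
    by_cases hm : m ∈ M
    · obtain ⟨a, b, h⟩ := exists_Icc (hcne m) (f := u) (L := am m * (√2 * d)) (by
        intro x hx y hy
        refine (hu.le x y (((hseg m hm x hx y hy).trans (hM m hm).2.2.1).trans
          fun z hz => hz.1.2) (am m) fun z hz =>
          ((hM m hm).2.2.2 z (hseg m hm x hx y hy hz)).1).trans ?_
        exact mul_le_mul_of_nonneg_left (cell_dist hd0 hx hy) (hM m hm).1)
      exact ⟨a, b, fun _ => h⟩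
    · exact ⟨0, 0, fun h => absurd h hm⟩
  choose a b hab using hI
  have hFl : ∀ m ∈ M, ∀ x ∈ cell d m, ∀ y ∈ cell d m, ‖F x - F y‖ ≤ bm m * (√2 * d) := by
    intro m hm x hx y hy
    have h5 := (convex_cell d m).norm_image_sub_le_of_norm_deriv_le (𝕜 := ℂ) (f := F) (C := bm m)
      (fun z hz => hF.differentiableAt (hUo.mem_nhds ((hM m hm).2.2.1 hz).2))
      (fun z hz => ((hM m hm).2.2.2 z hz).2) hy hx
    exact h5.trans (mul_le_mul_of_nonneg_left (cell_dist hd0 hx hy) (hM m hm).2.1)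
  refine ⟨M, cell d, a, b, fun m => bm m * (√2 * d), δ', hδ'0, hδ', ?_, ?_, h4, ?_⟩
  · intro m hm
    refine ⟨isClosed_cell d m, (hab m hm).1, mul_nonneg (hM m hm).2.1 (by positivity),
      (hM m hm).2.2.1, ?_, (hab m hm).2.2⟩
    intro x hx y hy
    rw [dist_eq_norm]
    exact (cell_dist hd0 hx hy).trans hdδ
  · calc ∑ m ∈ M, ENNReal.ofReal ((b m - a m) * (bm m * (√2 * d)))
        ≤ ∑ m ∈ M, 2 * ENNReal.ofReal (d ^ 2 * (am m * bm m)) := by
          refine Finset.sum_le_sum fun m hm => ?_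
          rw [show (2 : ℝ≥0∞) = ENNReal.ofReal 2 by simp, ← ENNReal.ofReal_mul (by norm_num)]
          apply ENNReal.ofReal_le_ofReal
          have h5 := hab m hm
          have h6 := hM m hm
          calc (b m - a m) * (bm m * (√2 * d)) ≤ (am m * (√2 * d)) * (bm m * (√2 * d)) :=
                mul_le_mul_of_nonneg_right h5.2.1 (mul_nonneg h6.2.1 (by positivity))
            _ = (√2 * √2) * (d ^ 2 * (am m * bm m)) := by ring
            _ = 2 * (d ^ 2 * (am m * bm m)) := by rw [Real.mul_self_sqrt (by norm_num)]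
      _ = 2 * ∑ m ∈ M, ENNReal.ofReal (d ^ 2 * (am m * bm m)) := by rw [Finset.mul_sum]
      _ ≤ 2 * ((∫⁻ z in O ∩ G ∩ (⋃₀ S)ᶜ, ENNReal.ofReal (ρ z * ‖deriv F z‖)) +
          ENNReal.ofReal (η / 2)) := by gcongr
      _ = _ := by
          rw [mul_add]
          congr 1
          rw [show (2 : ℝ≥0∞) = ENNReal.ofReal 2 by simp, ← ENNReal.ofReal_mul (by norm_num)]
          congr 1
          ring
  · intro s C' hC' hC'D hlev p hp hpU
    refine ⟨?_, ?_⟩
    · intro P hP hne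
      obtain ⟨z, hz, hzC, hzP⟩ : ∃ z ∈ cthickening δ' P, z ∈ C' ∧ z ∉ P := by
        by_contra hcon
        push Not at hcon
        have hcov2 : C' ⊆ P ∪ (thickening δ' P)ᶜ := by
          intro z hz
          by_cases h : z ∈ thickening δ' P
          · exact Or.inl (hcon z (thickening_subset_cthickening _ _ h) hz)
          · exact Or.inr h
        have hA : (C' ∩ P).Nonempty := by
          obtain ⟨z, hz, hz'⟩ := hne
          exact ⟨z, hz', hcon z hz hz'⟩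
        have hB : (C' ∩ (thickening δ' P)ᶜ).Nonempty := by
          refine ⟨p, hp, fun h => hpU ⟨P, hP, hcon p (thickening_subset_cthickening _ _ h) hp⟩⟩
        obtain ⟨z, -, hz1, hz2⟩ := isPreconnected_closed_iff.1 hC' _ _ (hcpt P hP).isClosed
          isOpen_thickening.isClosed_compl hcov2 hA hB
        exact hz2 (self_subset_thickening hδ'0 P hz1)
      have hzU : z ∉ ⋃₀ S := by
        rintro ⟨Q, hQ, hzQ⟩
        have hPQ : P ≠ Q := fun h => hzP (h ▸ hzQ)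
        exact Set.disjoint_left.1 (h3 P hP Q hQ hPQ) hz (self_subset_cthickening Q hzQ)
      have h5 := h2 P hP hz hzP
      rw [← hlev z hzC hzU]
      exact h5.2
    · intro q hq hqU M' T' hMM hM' hTS hT'
      have key : ∀ φ : ℂ →L[ℝ] ℝ, (∀ z, |φ z| ≤ ‖z‖) → ∀ p ∈ C', p ∉ ⋃₀ S → ∀ q ∈ C', q ∉ ⋃₀ S →
          φ (F q) - φ (F p) ≤ ∑ m ∈ M', bm m * (√2 * d) + ∑ P ∈ T', 2 * (r P + η) := by
        intro φ hφ p hp hpU q hq hqU
        have hIF : ∀ m, ∃ a b : ℝ, m ∈ M → a ≤ b ∧ b - a ≤ bm m * (√2 * d) ∧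
            ∀ x ∈ cell d m, a ≤ φ (F x) ∧ φ (F x) ≤ b := by
          intro m
          by_cases hm : m ∈ M
          · obtain ⟨a, b, h⟩ := exists_Icc (hcne m) (f := fun x => φ (F x))
              (L := bm m * (√2 * d)) (by
                intro x hx y hy
                rw [← map_sub]
                exact (hφ _).trans (hFl m hm x hx y hy))
            exact ⟨a, b, fun _ => h⟩
          · exact ⟨0, 0, fun h => absurd h hm⟩
        choose a' b' hab' using hIF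
        have hmain := osc_le_sum (M'.disjSum T')
          (A := fun e => Sum.elim (cell d) (fun P => cthickening δ' P) e)
          (C := C') (Y := (⋃₀ S)ᶜ) (f := fun z => φ (F z))
          (a := fun e => Sum.elim a' (fun P => φ (c P) - (r P + η)) e)
          (b := fun e => Sum.elim b' (fun P => φ (c P) + (r P + η)) e)
          (p := p) (q := q) ?_ hC' ?_ ?_ ?_ ?_ hp hpU hq hqU
        · rw [Finset.sum_disjSum] at hmain
          simp only [Sum.elim_inl, Sum.elim_inr] at hmain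
          have h5 : ∑ m ∈ M', ENNReal.ofReal (b' m - a' m) ≤
              ENNReal.ofReal (∑ m ∈ M', bm m * (√2 * d)) := by
            rw [ENNReal.ofReal_sum_of_nonneg]
            · exact Finset.sum_le_sum fun m hm =>
                ENNReal.ofReal_le_ofReal (hab' m (hMM hm)).2.1
            · intro m hm
              exact mul_nonneg (hM m (hMM hm)).2.1 (by positivity)
          have h6 : ∑ P ∈ T', ENNReal.ofReal (φ (c P) + (r P + η) - (φ (c P) - (r P + η))) =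
              ENNReal.ofReal (∑ P ∈ T', 2 * (r P + η)) := by
            rw [ENNReal.ofReal_sum_of_nonneg]
            · refine Finset.sum_congr rfl fun P _ => ?_
              congr 1
              ring
            · intro P hP
              have := hr P (hTS P hP)
              positivity
          have h7 : 0 ≤ ∑ m ∈ M', bm m * (√2 * d) := Finset.sum_nonneg fun m hm =>
            mul_nonneg (hM m (hMM hm)).2.1 (by positivity)
          have h8 : 0 ≤ ∑ P ∈ T', 2 * (r P + η) := Finset.sum_nonneg fun P hP => by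
            have := hr P (hTS P hP)
            positivity
          have h9 := hmain.trans (add_le_add h5 h6.le)
          rw [← ENNReal.ofReal_add h7 h8] at h9
          exact (ENNReal.ofReal_le_ofReal_iff (by positivity)).1 h9
        · rintro (m | P) he
          · exact isClosed_cell d m
          · exact isClosed_cthickening
        · intro z hz
          by_cases h : z ∈ ⋃ P ∈ S, thickening δ' P
          · obtain ⟨P, hP, hzP⟩ := mem_iUnion₂.1 h
            have h5 := thickening_subset_cthickening _ _ hzP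
            exact mem_biUnion (Finset.inr_mem_disjSum.2 (hT' P hP ⟨z, h5, hz⟩)) h5
          · obtain ⟨m, hm, hzm⟩ := mem_iUnion₂.1 (hcov ⟨hC'D hz, h⟩)
            exact mem_biUnion (Finset.inl_mem_disjSum.2 (hM' m hm ⟨z, hzm, hz⟩)) hzm
        · rintro (m | P) he (m' | P') he' hne z hzC hz hz'
          · exact ((hM m (hMM (Finset.inl_mem_disjSum.1 he))).2.2.1 hz).2
          · exact ((hM m (hMM (Finset.inl_mem_disjSum.1 he))).2.2.1 hz).2
          · exact ((hM m' (hMM (Finset.inl_mem_disjSum.1 he'))).2.2.1 hz').2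
          · have hPP : P ≠ P' := fun h => hne (by rw [h])
            exact absurd hz' (Set.disjoint_left.1 (h3 P (hTS P (Finset.inr_mem_disjSum.1 he)) P'
              (hTS P' (Finset.inr_mem_disjSum.1 he')) hPP) hz)
        · rintro (m | P) he
          · exact (hab' m (hMM (Finset.inl_mem_disjSum.1 he))).1
          · have := hr P (hTS P (Finset.inr_mem_disjSum.1 he))
            simp only [Sum.elim_inr]
            linarith
        · rintro (m | P) he z hzC hz hzY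
          · exact (hab' m (hMM (Finset.inl_mem_disjSum.1 he))).2.2 z hz
          · have h5 := h1 P (hTS P (Finset.inr_mem_disjSum.1 he)) hz hzY
            have h6 := (hφ (F z - c P)).trans h5
            rw [map_sub, abs_le] at h6
            simp only [Sum.elim_inr]
            constructor <;> linarith [h6.1, h6.2]
      have hre : ∀ z, |Complex.reCLM z| ≤ ‖z‖ := fun z => Complex.abs_re_le_norm z
      have him : ∀ z, |Complex.imCLM z| ≤ ‖z‖ := fun z => Complex.abs_im_le_norm z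
      refine ⟨abs_le.2 ⟨?_, ?_⟩, abs_le.2 ⟨?_, ?_⟩⟩
      · have := key Complex.reCLM hre p hp hpU q hq hqU
        simp only [Complex.reCLM_apply] at this
        linarith
      · have := key Complex.reCLM hre q hq hqU p hp hpU
        simp only [Complex.reCLM_apply] at this
        linarith
      · have := key Complex.imCLM him p hp hpU q hq hqU
        simp only [Complex.imCLM_apply] at this
        linarith
      · have := key Complex.imCLM him q hq hqU p hp hpU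
        simp only [Complex.imCLM_apply] at this
        linarith

end Vale.Agent.P116.Cl
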